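import Crest.Agent.X212.Sep15.Defs
import Crest.Agent.X212.Glue52.Two
import Crest.Agent.X212.Cyl58.Cov

-- ▼ part X212/Sep15/Gl
section

/-!
# X212/Sep15/Gl (helper15): relational gluing; existence of `Rg`, `Sw`, `Jo`, `Bs`
-/

set_option autoImplicit false
set_option linter.unusedSectionVars false

open Set Filter Topology Function
open scoped ContDiff Manifold
open Crest.Agent.X212.Cyl58

noncomputable section

namespace Crest.Agent.X212.Sep15

section glue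

variable {n : ℕ} {M : Type} [TopologicalSpace M] [ChartedSpace (EE n) M] [IsManifold (𝓡 n) ∞ M]
  [T2Space M] [SecondCountableTopology M] {E H : Type} [NormedAddCommGroup E] [NormedSpace ℝ E]
  [TopologicalSpace H] {J : ModelWithCorners ℝ E H} [J.Boundaryless] {N : Type} [TopologicalSpace N]
  [ChartedSpace H N] [IsManifold J ∞ N] [T2Space N] [SecondCountableTopology N]

/-- glue the open part `U` of `M` and `N` along `f : W → U` -/
theorem glue2 (L : E ≃L[ℝ] EE n) {U : Set M} (hU : IsOpen U) {W : Set N} (hW : IsOpen W)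
    {f : N → M} (hf : ∀ p ∈ W, IsLocalDiffeomorphAt J (𝓡 n) ∞ f p) (hi : InjOn f W)
    (hm : MapsTo f W U) (h0 : ∀ x ∉ U, Nonempty N) {B : Set N} (hB : IsClosed B) (hBW : B ⊆ W)
    {A : Set N} (hA : W ⊆ A ∪ B) {t : Set M} (ht : IsClosed t) (e1 : MapsTo f (A ∩ W) t)
    (e2 : ∀ x ∈ t ∩ U, x ∈ f '' (A ∩ W)) :
    ∃ (X : Type) (_ : TopologicalSpace X) (_ : ChartedSpace (EE n) X) (_ : IsManifold (𝓡 n) ∞ X)
      (_ : T2Space X) (_ : SecondCountableTopology X)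
      (i : PartialDiffeomorph (𝓡 n) (𝓡 n) M X ∞) (e : N → X), IsOE J (𝓡 n) e ∧ i.source = U ∧
        i.target = (e '' Wᶜ)ᶜ ∧ ∀ p ∈ W, e p = i (f p) := by
  classical
  let U' : TopologicalSpace.Opens M := ⟨U, hU⟩
  let W' : TopologicalSpace.Opens N := ⟨W, hW⟩
  let T : Glue52.Two (EE n) (𝓡 n) J J U' N W' :=
    { L₁ := ContinuousLinearEquiv.refl ℝ _
      L₂ := L
      j₁ := fun w => ⟨f w, hm w.2⟩
      j₂ := Subtype.val
      ld₁ := fun w => Glue52.ld_codRestrict (Glue52.ld_restrict (hf w w.2))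
      ld₂ := Glue52.ld_val W'
      inj₁ := fun w w' e => Subtype.ext (hi w.2 w'.2 (congrArg Subtype.val e))
      inj₂ := Subtype.val_injective }
  have ht2 : T2Space T.M := by
    refine T.t2Space (A := Subtype.val ⁻¹' A) (B := Subtype.val ⁻¹' B)
      (eq_univ_of_forall fun w => hA w.2) ?_ ?_
    · convert ht.preimage (continuous_subtype_val (p := (· ∈ U'))) using 1
      ext x
      constructor
      · rintro ⟨w, hw, rfl⟩
        exact e1 ⟨hw, w.2⟩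
      · intro hx
        obtain ⟨p, hp, e⟩ := e2 x ⟨hx, x.2⟩
        exact ⟨⟨p, hp.2⟩, hp.1, Subtype.ext e⟩
    · convert hB using 1
      ext p
      exact ⟨fun ⟨w, hw, e⟩ => e ▸ hw, fun hp => ⟨⟨p, hBW hp⟩, hp, rfl⟩⟩
  have hl : IsOE (𝓡 n) (𝓡 n) T.inl := ⟨T.inl_injective, T.ld_inl⟩
  let g : M → T.M := fun x => if h : x ∈ U then T.inl ⟨x, h⟩ else T.inr (h0 x h).some
  have hg : ∀ x : U', g x = T.inl x := fun x => dif_pos x.2
  have hk : ∀ x : U', T.lift Subtype.val f (T.inl x) = x := T.lift_inl fun _ => rfl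
  let i : PartialDiffeomorph (𝓡 n) (𝓡 n) M T.M ∞ :=
    { toFun := g
      invFun := T.lift Subtype.val f
      source := U
      target := range T.inl
      map_source' := fun x hx => ⟨⟨x, hx⟩, (hg ⟨x, hx⟩).symm⟩
      map_target' := by rintro _ ⟨x, rfl⟩; rw [hk]; exact x.2
      left_inv' := fun x hx => by rw [hg ⟨x, hx⟩, hk]
      right_inv' := by rintro _ ⟨x, rfl⟩; rw [hk, hg]
      open_source := hU
      open_target := hl.isOpen_range
      contMDiffOn_toFun := fun x hx => (contMDiffAt_of_comp (Glue52.ld_val U' ⟨x, hx⟩) (by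
        rw [show g ∘ Subtype.val = T.inl from funext hg]; exact hl.contMDiff _)).contMDiffWithinAt
      contMDiffOn_invFun := hl.contMDiffOn_range (by
        rw [show T.lift Subtype.val f ∘ T.inl = Subtype.val from funext hk]
        exact contMDiff_subtype_val) }
  refine ⟨T.M, inferInstance, inferInstance, inferInstance, ht2, inferInstance, i, T.inr,
    ⟨T.inr_injective, T.ld_inr⟩, rfl, ?_, fun p hp => ?_⟩
  · ext x
    constructor
    · rintro ⟨y, rfl⟩ ⟨q, hq, e⟩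
      obtain ⟨w, -, rfl⟩ := T.inl_eq_inr.1 e.symm
      exact hq w.2
    · intro hx
      rcases T.surj x with ⟨y, rfl⟩ | ⟨q, rfl⟩
      · exact ⟨y, rfl⟩
      · by_cases hq : q ∈ W
        · exact ⟨_, T.inl_j₁ ⟨q, hq⟩⟩
        · exact (hx ⟨q, hq, rfl⟩).elim
  · exact ((hg ⟨f p, hm hp⟩).trans (T.inl_j₁ ⟨p, hp⟩)).symm

/-- change of the model -/
theorem remodel (L : E ≃L[ℝ] EE n) :
    ∃ (X : Type) (_ : TopologicalSpace X) (_ : ChartedSpace (EE n) X) (_ : IsManifold (𝓡 n) ∞ X)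
      (_ : T2Space X) (_ : SecondCountableTopology X), Nonempty (N ≃ₘ^∞⟮J, 𝓡 n⟯ X) := by
  let T : Glue52.Two (EE n) J J J N N N :=
    ⟨L, L, id, id, Glue52.ld_id, Glue52.ld_id, injective_id, injective_id⟩
  have hl : IsOE J (𝓡 n) T.inl := ⟨T.inl_injective, T.ld_inl⟩
  let g := hl.diffeo fun x => (T.surj x).elim id fun ⟨q, e⟩ => ⟨q, (T.inl_j₁ q).trans e⟩
  exact ⟨T.M, inferInstance, inferInstance, inferInstance, g.toHomeomorph.t2Space, inferInstance,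
    ⟨g⟩⟩

end glue

/-! ### boxes -/

section box

variable {Y Y' : CM 3} {R R' : CM 2} {b : R × ℝ → Y}

theorem mem_slab (hb : Box b) {s : Set ℝ} {p : R × ℝ} : b p ∈ slab b s ↔ p.2 ∈ s := by
  refine ⟨?_, fun h => ⟨p, ⟨mem_univ _, h⟩, rfl⟩⟩
  rintro ⟨q, hq, e⟩
  rw [← hb.inj e]; exact hq.2

theorem slab_subset (b : R × ℝ → Y) (s : Set ℝ) : slab b s ⊆ range b := image_subset_range _ _

theorem slab_mono (b : R × ℝ → Y) {s t : Set ℝ} (h : s ⊆ t) : slab b s ⊆ slab b t :=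
  image_mono (prod_mono Subset.rfl h)

theorem isCompact_slab (hb : Box b) {s : Set ℝ} (hs : IsCompact s) : IsCompact (slab b s) :=
  (isCompact_univ.prod hs).image hb.continuous

theorem isClosed_slab (hb : Box b) {s : Set ℝ} (hs : IsCompact s) : IsClosed (slab b s) :=
  (isCompact_slab hb hs).isClosed

theorem isOpen_slab (hb : Box b) {s : Set ℝ} (hs : IsOpen s) : IsOpen (slab b s) :=
  hb.isOpen_image (isOpen_univ.prod hs)

theorem isOE_px {h : R → R'} (hh : IsOE (𝓡 2) (𝓡 2) h) : IsOE (IR 2) (IR 2) (px h) :=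
  hh.prodMap IsOE.id

theorem Box.px (hb : Box b) (h : R' ≃ₘ^∞⟮𝓡 2, 𝓡 2⟯ R) : Box (b ∘ px h) :=
  IsOE.comp hb (isOE_px (IsOE.of_diffeo h))

theorem slab_px (b : R × ℝ → Y) {h : R' → R} (hh : Surjective h) (s : Set ℝ) :
    slab (b ∘ px h) s = slab b s := by
  refine Subset.antisymm ?_ ?_
  · rintro _ ⟨p, hp, rfl⟩
    exact ⟨_, ⟨mem_univ _, hp.2⟩, rfl⟩
  · rintro _ ⟨⟨x, v⟩, hp, rfl⟩
    obtain ⟨x', rfl⟩ := hh x
    exact ⟨(x', v), ⟨mem_univ _, hp.2⟩, rfl⟩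

/-- the linear identification of the model of `R × ℝ` -/
def L3 : (EE 2 × ℝ) ≃L[ℝ] EE 3 := Glue52.linE 3 _ (by simp)

theorem rgStmt : RgStmt := by
  intro Y R b h hb
  classical
  let f : R × ℝ → Y := fun p => if p.2 < 0 then b p else b (px h.symm p)
  have f1 : ∀ p : R × ℝ, p.2 < 0 → f p = b p := fun p hp => if_pos hp
  have f2 : ∀ p : R × ℝ, 0 < p.2 → f p = b (px h.symm p) := fun p hp => if_neg hp.not_gt
  have f3 : ∀ p : R × ℝ, ∃ x, f p = b (x, p.2) := fun p => by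
    by_cases hp : p.2 < 0
    exacts [⟨_, if_pos hp⟩, ⟨_, if_neg hp⟩]
  have f4 : ∀ p : R × ℝ, p.2 ≠ 0 → ∃ x, f (x, p.2) = b p := fun p hp => by
    rcases hp.lt_or_gt with hp | hp
    · exact ⟨p.1, f1 p hp⟩
    · exact ⟨h p.1, (f2 (h p.1, p.2) hp).trans (by simp [px])⟩
  obtain ⟨X, _, _, _, _, _, i, e, he, hs, ht, hq⟩ := glue2 (J := IR 2) L3
    (isClosed_slab hb isCompact_singleton (s := {0})).isOpen_compl
    (W := {p : R × ℝ | p.2 ≠ 0}) (isOpen_ne.preimage continuous_snd) (f := f)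
    (fun p hp => by
      rcases hp.lt_or_gt with hp | hp
      · refine ld_congr (hb.loc p) ?_
        filter_upwards [(isOpen_Iio.preimage continuous_snd).mem_nhds hp] with q hq using f1 q hq
      · refine ld_congr ((hb.px h.symm).loc p) ?_
        filter_upwards [(isOpen_Ioi.preimage continuous_snd).mem_nhds hp] with q hq using f2 q hq)
    (fun p hp q hq e => by
      obtain ⟨x, e1⟩ := f3 p
      obtain ⟨x', e2⟩ := f3 q
      have e3 : p.2 = q.2 := (Prod.ext_iff.1 (hb.inj (e1.symm.trans (e.trans e2)))).2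
      rcases hp.lt_or_gt with hp | hp
      · rw [f1 p hp, f1 q (e3 ▸ hp)] at e
        exact hb.inj e
      · rw [f2 p hp, f2 q (e3 ▸ hp)] at e
        exact (hb.px h.symm).inj e)
    (fun p hp hc => by
      obtain ⟨x, e1⟩ := f3 p
      rw [e1, mem_slab hb] at hc
      exact hp hc)
    (fun x hx => by
      obtain ⟨p, -, -⟩ := not_not.1 hx
      exact ⟨p⟩)
    (B := {p | 1 ≤ |p.2|}) (isClosed_le continuous_const continuous_snd.abs)
    (fun p (hp : 1 ≤ |p.2|) (h0 : p.2 = 0) => by rw [h0, abs_zero] at hp; linarith)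
    (A := {p | p.2 ∈ Icc (-1 : ℝ) 1})
    (fun p _ => (le_total |p.2| 1).imp (fun h => abs_le.1 h) id)
    (isClosed_slab hb (isCompact_Icc (a := -1) (b := 1)))
    (fun p hp => by
      obtain ⟨x, e1⟩ := f3 p
      rw [e1, mem_slab hb]
      exact hp.1)
    (by
      rintro _ ⟨⟨p, hp, rfl⟩, h0⟩
      have h1 : p.2 ≠ 0 := fun h => h0 ((mem_slab hb).2 h)
      obtain ⟨x, e1⟩ := f4 p h1
      exact ⟨(x, p.2), ⟨hp.2, h1⟩, e1⟩)
  have hc : CompactSpace X := by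
    have k1 : IsCompact (slab b (Ioo (-1) 1))ᶜ := (isOpen_slab hb isOpen_Ioo).isClosed_compl.isCompact
    have k2 : (slab b (Ioo (-1) 1))ᶜ ⊆ i.source :=
      hs ▸ compl_subset_compl.2 (slab_mono b (by norm_num))
    refine ⟨((k1.image_of_continuousOn (i.contMDiffOn_toFun.continuousOn.mono k2)).union
      ((isCompact_univ.prod (isCompact_Icc (a := (-1 : ℝ)) (b := 1))).image
        he.continuous)).of_isClosed_subset isClosed_univ fun x _ => ?_⟩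
    by_cases hx : x ∈ i.target
    · by_cases h1 : i.symm x ∈ slab b (Ioo (-1) 1)
      · obtain ⟨p, hp, e1⟩ := h1
        have h2 : p.2 ≠ 0 := fun h => (hs ▸ i.map_target hx : _ ∈ (slab b {0})ᶜ)
          ⟨p, ⟨mem_univ _, h⟩, e1⟩
        obtain ⟨y, e2⟩ := f4 p h2
        refine .inr ⟨(y, p.2), ⟨mem_univ _, Ioo_subset_Icc_self hp.2⟩, ?_⟩
        rw [hq (y, p.2) h2, e2, e1]
        exact i.right_inv hx
      · exact .inl ⟨_, h1, i.right_inv hx⟩
    · rw [ht, mem_compl_iff, not_not] at hx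
      obtain ⟨p, hp, rfl⟩ := hx
      exact .inr ⟨p, ⟨mem_univ _, by rw [show p.2 = 0 from not_not.1 hp]; norm_num⟩, rfl⟩
  refine ⟨⟨X⟩, e, ⟨⟨hb, he, i, hs, ?_, fun p hp => ?_, fun p hp => ?_⟩⟩⟩
  · rw [ht]
    congr 2
    ext p
    simp
  · rw [hq p hp.ne, f1 p hp]
  · rw [hq (px h p) hp.ne', f2 (px h p) hp]
    simp [px]

/-- the disjoint union of two closed manifolds -/
def CM.sum {n : ℕ} (A B : CM n) : CM n := ⟨A ⊕ B⟩

theorem isOE_inl {n : ℕ} (A B : CM n) : IsOE (𝓡 n) (𝓡 n) (Sum.inl : A → A.sum B) :=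
  ⟨Sum.inl_injective, fun x => ld_of_inverse (g := Sum.elim id fun _ => x) isOpen_univ
    isOpen_range_inl ContMDiff.inl.contMDiffOn (contMDiff_id.sumElim contMDiff_const).contMDiffOn
    (fun _ _ => mem_range_self _) (fun _ _ => mem_univ _) (fun _ _ => rfl)
    (by rintro _ ⟨y, rfl⟩; rfl) (mem_univ x)⟩

theorem isOE_inr {n : ℕ} (A B : CM n) : IsOE (𝓡 n) (𝓡 n) (Sum.inr : B → A.sum B) :=
  ⟨Sum.inr_injective, fun x => ld_of_inverse (g := Sum.elim (fun _ => x) id) isOpen_univ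
    isOpen_range_inr ContMDiff.inr.contMDiffOn (contMDiff_const.sumElim contMDiff_id).contMDiffOn
    (fun _ _ => mem_range_self _) (fun _ _ => mem_univ _) (fun _ _ => rfl)
    (by rintro _ ⟨y, rfl⟩; rfl) (mem_univ x)⟩

theorem isOE_pxl (R R' : CM 2) : IsOE (IR 2) (IR 2) (px (Sum.inl : R → R.sum R')) :=
  isOE_px (R' := R.sum R') (isOE_inl R R')

theorem isOE_pxr (R R' : CM 2) : IsOE (IR 2) (IR 2) (px (Sum.inr : R' → R.sum R')) :=
  isOE_px (R' := R.sum R') (isOE_inr R R')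

/-- two disjoint boxes as one box -/
def two (b₁ : R × ℝ → Y) (b₂ : R' × ℝ → Y) (p : R.sum R' × ℝ) : Y :=
  Sum.elim (fun x => b₁ (x, p.2)) (fun x => b₂ (x, p.2)) p.1

theorem box_two {b₁ : R × ℝ → Y} {b₂ : R' × ℝ → Y} (h₁ : Box b₁) (h₂ : Box b₂)
    (hd : ∀ p q, b₁ p ≠ b₂ q) : Box (two b₁ b₂) := by
  refine ⟨?_, ?_⟩
  · rintro ⟨x | x, v⟩ ⟨y | y, w⟩ e
    · obtain ⟨rfl, rfl⟩ := Prod.ext_iff.1 (h₁.inj e); rfl
    · exact (hd _ _ e).elim
    · exact (hd _ _ e.symm).elim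
    · obtain ⟨rfl, rfl⟩ := Prod.ext_iff.1 (h₂.inj e); rfl
  · rintro ⟨x | x, v⟩
    · exact ld_of_comp (f := px (Sum.inl : R → R.sum R')) (x := (x, v)) ((isOE_pxl R R').loc _) (h₁.loc _)
    · exact ld_of_comp (f := px (Sum.inr : R' → R.sum R')) (x := (x, v)) ((isOE_pxr R R').loc _) (h₂.loc _)

theorem slab_sum (b : R.sum R' × ℝ → Y) (s : Set ℝ) :
    slab b s = slab (b ∘ px Sum.inl) s ∪ slab (b ∘ px Sum.inr) s := by
  refine Subset.antisymm ?_ (union_subset ?_ ?_)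
  · rintro _ ⟨⟨x | x, v⟩, hp, rfl⟩
    exacts [.inl ⟨(x, v), ⟨mem_univ _, hp.2⟩, rfl⟩, .inr ⟨(x, v), ⟨mem_univ _, hp.2⟩, rfl⟩]
  all_goals
    rintro _ ⟨p, hp, rfl⟩
    exact ⟨_, ⟨mem_univ _, hp.2⟩, rfl⟩

theorem swStmt : SwStmt := by
  intro Y R b₁ b₂ h₁ h₂ hd
  obtain ⟨Y', b', ⟨G⟩⟩ := rgStmt Y (R.sum R) (two b₁ b₂) (Diffeomorph.sumComm (𝓡 2) R ∞ R)
    (box_two h₁ h₂ hd)
  exact ⟨Y', b' ∘ px Sum.inl, b' ∘ px Sum.inr, ⟨⟨h₁, h₂, hd,
    G.o'.comp (isOE_pxl R R), G.o'.comp (isOE_pxr R R),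
    fun p q e => Sum.inl_ne_inr (congrArg Prod.fst (G.o'.inj e)), G.φ,
    G.src.trans (congrArg compl (slab_sum _ _)), G.tgt.trans (congrArg compl (slab_sum _ _)),
    fun p hp => G.lo (.inl p.1, p.2) hp, fun p hp => G.hi (.inr p.1, p.2) hp,
    fun p hp => G.lo (.inr p.1, p.2) hp, fun p hp => G.hi (.inl p.1, p.2) hp⟩⟩⟩

end box

/-! ### ends -/

namespace End

variable {Y : CM 3} (C : End Y)

theorem exists_notMem (x : C.X) : ∃ T, x ∉ C.j '' (univ ×ˢ Ici T) := by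
  by_cases hx : x ∈ range C.j
  · obtain ⟨p, rfl⟩ := hx
    refine ⟨p.2 + 1, ?_⟩
    rintro ⟨q, hq, e⟩
    rw [C.oe.inj e] at hq
    exact absurd (show p.2 + 1 ≤ p.2 from hq.2) (by simp)
  · exact ⟨0, fun ⟨p, _, e⟩ => hx ⟨p, e⟩⟩

/-- a set of the end whose truncations are compact is closed in `X` -/
theorem isClosed_image {s : Set (Y × ℝ)} (h : ∀ T, IsCompact (s ∩ {p | p.2 ≤ T})) :
    IsClosed (C.j '' s) := by
  refine isOpen_compl_iff.1 (isOpen_iff_mem_nhds.2 fun x hx => ?_)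
  obtain ⟨T, hT⟩ := C.exists_notMem x
  filter_upwards [(C.isClosed_Ici T).isOpen_compl.mem_nhds hT,
    ((h T).image C.oe.continuous).isClosed.isOpen_compl.mem_nhds
      fun h' => hx (image_mono inter_subset_left h')] with y h1 h2
  rintro ⟨p, hp, rfl⟩
  rcases le_total p.2 T with h3 | h3
  exacts [h2 ⟨p, ⟨hp, h3⟩, rfl⟩, h1 ⟨p, ⟨mem_univ _, h3⟩, rfl⟩]

end End

theorem joStmt : JoStmt := by
  intro Y C₁ C₂
  let T : Glue52.Two (EE 4) (𝓡 4) (𝓡 4) (IR 3) C₁.X C₂.X (Y × ℝ) :=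
    { L₁ := ContinuousLinearEquiv.refl ℝ _
      L₂ := ContinuousLinearEquiv.refl ℝ _
      j₁ := C₁.j
      j₂ := C₂.j ∘ Prod.map id fun t => -t
      ld₁ := C₁.oe.loc
      ld₂ := (C₂.oe.comp (IsOE.id.prodMap isOE_neg)).loc
      inj₁ := C₁.oe.inj
      inj₂ := (C₂.oe.comp (IsOE.id.prodMap isOE_neg)).inj }
  have : T2Space T.M := by
    refine T.t2Space (A := univ ×ˢ Ici 0) (B := univ ×ˢ Iic 0)
      (eq_univ_of_forall fun p => (le_total 0 p.2).imp (fun h => ⟨mem_univ _, h⟩)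
        fun h => ⟨mem_univ _, h⟩) C₁.isEnd.cl ?_
    convert C₂.isEnd.cl using 1
    ext x
    constructor
    · rintro ⟨p, hp, rfl⟩
      exact ⟨(p.1, -p.2), ⟨mem_univ _, neg_nonneg.2 (show p.2 ≤ 0 from hp.2)⟩, rfl⟩
    · rintro ⟨p, hp, rfl⟩
      exact ⟨(p.1, -p.2), ⟨mem_univ _, neg_nonpos.2 (show 0 ≤ p.2 from hp.2)⟩,
        congrArg C₂.j (Prod.ext rfl (neg_neg _))⟩
  have : CompactSpace T.M := by
    refine T.compactSpace C₁.cpt C₂.cpt (fun x => ?_) fun x => ?_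
    · by_cases hx : x ∈ C₁.K 0
      · exact .inl hx
      · obtain ⟨p, hp, rfl⟩ := not_not.1 hx
        exact .inr ⟨p, rfl, C₂.j_mem_K.2 (neg_nonpos.2 (le_of_lt hp.2))⟩
    · by_cases hx : x ∈ C₂.K 0
      · exact .inl hx
      · obtain ⟨p, hp, rfl⟩ := not_not.1 hx
        exact .inr ⟨(p.1, -p.2), congrArg C₂.j (Prod.ext rfl (neg_neg _)),
          C₁.j_mem_K.2 (neg_nonpos.2 (le_of_lt hp.2))⟩
  refine ⟨⟨T.M⟩, ⟨⟨T.inl, T.inr, ⟨T.inl_injective, T.ld_inl⟩, ⟨T.inr_injective, T.ld_inr⟩,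
    T.surj, fun p q => T.inl_eq_inr.trans ⟨?_, ?_⟩⟩⟩⟩
  · rintro ⟨n, rfl, rfl⟩
    exact ⟨n.1, n.2, rfl, rfl⟩
  · rintro ⟨y, t, rfl, rfl⟩
    exact ⟨(y, t), rfl, rfl⟩

/-- the linear identification of the model of `R × ℂ` -/
def L4 : (EE 2 × ℂ) ≃L[ℝ] EE 4 := Glue52.linE 4 _ (by simp)

/-- polar coordinates with logarithmic radius -/
def plr (p : Circle × ℝ) : ℂ := Real.exp p.2 * p.1

theorem norm_plr (p : Circle × ℝ) : ‖plr p‖ = Real.exp p.2 := by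
  rw [plr, norm_mul, Circle.norm_coe, mul_one, Complex.norm_real, Real.norm_of_nonneg (Real.exp_pos _).le]

theorem plr_log {z : ℂ} (h : z ≠ 0)   : plr (Glue52.dir z, Real.log ‖z‖) = z := by
  rw [plr, Real.exp_log (norm_pos_iff.2 h)]
  exact Glue52.norm_mul_dir z

theorem isOE_plr : IsOE ((𝓡 1).prod 𝓘(ℝ, ℝ)) 𝓘(ℝ, ℂ) plr := by
  refine ⟨fun p q e => ?_, fun p => ld_comp (f := Prod.map id Real.exp) (g := Glue52.polar)
    (Glue52.ld_polar (Real.exp_pos _)) ((IsOE.id.prodMap isOE_exp).loc p)⟩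
  have h1 : p.2 = q.2 := Real.exp_injective (by rw [← norm_plr, ← norm_plr, e])
  refine Prod.ext ?_ h1
  rw [← Glue52.dir_mul (Real.exp_pos p.2) p.1, ← Glue52.dir_mul (Real.exp_pos q.2) q.1]
  exact congrArg Glue52.dir e

theorem image_plr (s : Set ℝ) : plr '' (univ ×ˢ s) = {z | z ≠ 0 ∧ Real.log ‖z‖ ∈ s} := by
  ext z
  constructor
  · rintro ⟨p, hp, rfl⟩
    refine ⟨norm_pos_iff.1 (by rw [norm_plr]; exact Real.exp_pos _), ?_⟩
    rw [norm_plr, Real.log_exp]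
    exact hp.2
  · exact fun h => ⟨_, ⟨mem_univ _, h.2⟩, plr_log h.1⟩

theorem bsStmt : BsStmt := by
  intro R Y f
  obtain ⟨X, _, _, _, _, _, ⟨g⟩⟩ := remodel (J := IC) (N := R × ℂ) L4
  let k : Y × ℝ → R × ℂ := fun p => ((f.symm p.1).1, plr ((f.symm p.1).2, p.2))
  have hk : IsOE (IR 3) IC k :=
    ((IsOE.id.prodMap isOE_plr).comp isOE_assoc).comp ((IsOE.of_diffeo f.symm).prodMap IsOE.id)
  have hi : ∀ s : Set ℝ, (g ∘ k) '' (univ ×ˢ s) = g.symm ⁻¹' (univ ×ˢ (plr '' (univ ×ˢ s))) := by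
    intro s
    ext x
    constructor
    · rintro ⟨p, hp, rfl⟩
      rw [mem_preimage, comp_apply, g.symm_apply_apply]
      exact ⟨mem_univ _, _, ⟨mem_univ _, hp.2⟩, rfl⟩
    · rintro ⟨-, q, hq, e⟩
      refine ⟨(f ((g.symm x).1, q.1), q.2), ⟨mem_univ _, hq.2⟩, ?_⟩
      simp only [comp_apply, k, f.symm_apply_apply, Prod.mk.eta, e, g.apply_symm_apply]
  have h1 : plr '' (univ ×ˢ Ici 0) = {z | 1 ≤ ‖z‖} := by
    rw [image_plr]
    ext z
    exact ⟨fun h => (Real.log_nonneg_iff (norm_pos_iff.2 h.1)).1 h.2,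
      fun h => ⟨norm_pos_iff.1 (one_pos.trans_le h), Real.log_nonneg h⟩⟩
  have h2 : plr '' (univ ×ˢ Ioi 0) = {z | 1 < ‖z‖} := by
    rw [image_plr]
    ext z
    exact ⟨fun h => (Real.log_pos_iff (norm_nonneg _)).1 h.2,
      fun h => ⟨norm_pos_iff.1 (one_pos.trans h), Real.log_pos h⟩⟩
  refine ⟨⟨X, g ∘ k, ⟨(IsOE.of_diffeo g).comp hk, ?_⟩, ?_⟩, ⟨f, g, fun x θ t => ?_⟩, rfl⟩
  · rw [hi, h1]
    exact (isClosed_univ.prod (isClosed_le continuous_const continuous_norm)).preimage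
      g.symm.continuous
  · rw [hi, h2, ← preimage_compl]
    refine g.symm.toHomeomorph.isCompact_preimage.2 ?_
    convert (isCompact_univ (X := R)).prod (isCompact_closedBall (0 : ℂ) 1) using 1
    ext p
    simp
  · simp only [comp_apply, k, f.symm_apply_apply, plr]

/-- the product of a closed surface with the circle -/
theorem exists_prod (R : CM 2) :
    ∃ Y : CM 3, Nonempty ((R × Circle) ≃ₘ^∞⟮(𝓡 2).prod (𝓡 1), 𝓡 3⟯ Y) := by
  obtain ⟨X, _, _, _, _, _, ⟨g⟩⟩ := remodel (J := (𝓡 2).prod (𝓡 1)) (N := R × Circle)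
    (Glue52.linE 3 (EE 2 × EE 1) (by simp))
  have : CompactSpace X := g.toHomeomorph.compactSpace
  exact ⟨⟨X⟩, ⟨g⟩⟩

end Crest.Agent.X212.Sep15
end
end

-- ▼ part X212/Sep15/Raw

/-!
# X212/Sep15/Raw (helper15): the square, its root, and the glued four-manifold of `Op`
-/

set_option autoImplicit false
set_option linter.unusedSectionVars false

open Set Filter Topology Function
open scoped ContDiff Manifold
open Crest.Agent.X212.Cyl58

noncomputable section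

namespace Crest.Agent.X212.Sep15

/-! ### the square and its root -/

/-- `(Im z², Re z²)` -/
def sz (z : ℂ) : ℝ × ℝ := ((z ^ 2).im, (z ^ 2).re)

theorem sq_re (z : ℂ) : (z ^ 2).re = z.re ^ 2 - z.im ^ 2 := by rw [pow_two, Complex.mul_re]; ring

theorem sq_im (z : ℂ) : (z ^ 2).im = 2 * z.re * z.im := by rw [pow_two, Complex.mul_im]; ring

theorem contDiff_sz : ContDiff ℝ ∞ sz :=
  (Complex.imCLM.contDiff.comp (contDiff_id.pow 2)).prodMk
    (Complex.reCLM.contDiff.comp (contDiff_id.pow 2))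

theorem eq_or_neg_of_sz {z w : ℂ} (h : sz z = sz w) : z = w ∨ z = -w :=
  sq_eq_sq_iff_eq_or_eq_neg.1 (Complex.ext (congrArg Prod.snd h) (congrArg Prod.fst h))

/-- `(Im w, Re w)` -/
def ir : ℂ ≃L[ℝ] ℝ × ℝ := Complex.equivRealProdCLM.trans (ContinuousLinearEquiv.prodComm ℝ ℝ ℝ)

theorem ld_sz {z : ℂ} (h : z ≠ 0) :
    IsLocalDiffeomorphAt 𝓘(ℝ, ℂ) (𝓘(ℝ, ℝ).prod 𝓘(ℝ, ℝ)) ∞ sz z := by
  have h2 : (2 * z) ≠ 0 := mul_ne_zero two_ne_zero h
  have h1 : IsLocalDiffeomorphAt 𝓘(ℝ, ℂ) 𝓘(ℝ, ℝ × ℝ) ∞ sz z := by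
    refine Glue52.ld_of_fderiv isOpen_univ (mem_univ z) contDiff_sz.contDiffOn
      ((((ContinuousLinearEquiv.unitsEquivAut ℂ) (Units.mk0 _ h2)).restrictScalars ℝ).trans ir) ?_
    have h3 : HasDerivAt (fun w : ℂ => w ^ 2) (2 * z) z := by simpa using hasDerivAt_pow 2 z
    refine (ir.hasFDerivAt.comp z (h3.hasFDerivAt.restrictScalars ℝ)).congr_fderiv ?_
    refine ContinuousLinearMap.ext fun w => ?_
    simp
  rwa [modelWithCornersSelf_prod, ← chartedSpaceSelf_prod] at h1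

/-- the root of `eˢ + i v` with positive real part -/
def rt (p : ℝ × ℝ) : ℂ := Complex.exp (Complex.log (Real.exp p.2 + p.1 * Complex.I) / 2)

theorem rt_sq (p : ℝ × ℝ) : rt p ^ 2 = Real.exp p.2 + p.1 * Complex.I := by
  rw [rt, ← Complex.exp_nat_mul, Nat.cast_ofNat, mul_div_cancel₀ _ two_ne_zero, Complex.exp_log]
  intro h
  have := congrArg Complex.re h
  simp only [Complex.add_re, Complex.ofReal_re, Complex.mul_re, Complex.I_re, mul_zero,
    Complex.ofReal_im, Complex.I_im, zero_mul, sub_self, add_zero, Complex.zero_re] at this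
  exact (Real.exp_pos _).ne' this

theorem rt_sq_re (p : ℝ × ℝ) : (rt p ^ 2).re = Real.exp p.2 := by
  rw [rt_sq]; simp [-Complex.ofReal_exp]

theorem rt_sq_im (p : ℝ × ℝ) : (rt p ^ 2).im = p.1 := by
  rw [rt_sq]; simp [-Complex.ofReal_exp]

theorem mem_slit (p : ℝ × ℝ) : (Real.exp p.2 + p.1 * Complex.I : ℂ) ∈ Complex.slitPlane :=
  Or.inl (by simpa [-Complex.ofReal_exp] using Real.exp_pos p.2)

theorem rt_re_pos (p : ℝ × ℝ) : 0 < (rt p).re := by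
  rw [rt, Complex.exp_re]
  refine mul_pos (Real.exp_pos _) (Real.cos_pos_of_mem_Ioo ?_)
  rw [show (Complex.log (Real.exp p.2 + p.1 * Complex.I) / 2).im =
    Complex.arg (Real.exp p.2 + p.1 * Complex.I) / 2 by simp [Complex.log_im, -Complex.ofReal_exp]]
  have h1 := Complex.neg_pi_lt_arg (Real.exp p.2 + p.1 * Complex.I)
  have h2 := lt_of_le_of_ne (Complex.arg_le_pi _) (Complex.slitPlane_arg_ne_pi (mem_slit p))
  constructor <;> linarith

theorem contDiff_rt : ContDiff ℝ ∞ rt := by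
  refine contDiff_iff_contDiffAt.2 fun p => Complex.contDiff_exp.contDiffAt.comp p ?_
  refine ContDiffAt.div_const ?_ 2
  refine ((Complex.contDiffAt_log (mem_slit p)).restrict_scalars ℝ).comp p
    (f := fun p : ℝ × ℝ => (Real.exp p.2 + p.1 * Complex.I : ℂ)) ?_
  exact ((Complex.ofRealCLM.contDiff.comp (Real.contDiff_exp.comp contDiff_snd)).add
    ((Complex.ofRealCLM.contDiff.comp contDiff_fst).mul contDiff_const)).contDiffAt

theorem sz_rt (p : ℝ × ℝ) : sz (rt p) = (p.1, Real.exp p.2) := Prod.ext (rt_sq_im p) (rt_sq_re p)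

theorem sz_neg (z : ℂ) : sz (-z) = sz z := by simp [sz]

theorem rt_log {z : ℂ} (h : 0 < (z ^ 2).re) (h' : 0 < z.re) :
    rt ((z ^ 2).im, Real.log (z ^ 2).re) = z := by
  rcases eq_or_neg_of_sz (show sz (rt ((z ^ 2).im, Real.log (z ^ 2).re)) = sz z by
    rw [sz_rt, Real.exp_log h]; rfl) with e | e
  · exact e
  · have := rt_re_pos ((z ^ 2).im, Real.log (z ^ 2).re)
    rw [e, Complex.neg_re] at this
    linarith

theorem rt_im_pos {p : ℝ × ℝ} (h : 0 < p.1) : 0 < (rt p).im := by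
  have := rt_sq_im p
  rw [sq_im] at this
  exact (pos_iff_pos_of_mul_pos (this ▸ h)).1 (mul_pos two_pos (rt_re_pos p))

theorem rt_im_neg {p : ℝ × ℝ} (h : p.1 < 0) : (rt p).im < 0 := by
  have := rt_sq_im p
  rw [sq_im] at this
  exact neg_of_mul_neg_right (this ▸ h) (mul_pos two_pos (rt_re_pos p)).le

theorem rt_im_zero {p : ℝ × ℝ} (h : p.1 = 0) : (rt p).im = 0 := by
  have := rt_sq_im p
  rw [sq_im, h] at this
  exact (mul_eq_zero.1 this).resolve_left (mul_pos two_pos (rt_re_pos p)).ne'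

theorem rt_ne (p : ℝ × ℝ) : rt p ≠ 0 := fun h => (rt_re_pos p).ne' (by rw [h]; rfl)

theorem isOE_rt : IsOE (𝓘(ℝ, ℝ).prod 𝓘(ℝ, ℝ)) 𝓘(ℝ, ℂ) rt := by
  have h : IsOE (𝓘(ℝ, ℝ).prod 𝓘(ℝ, ℝ)) (𝓘(ℝ, ℝ).prod 𝓘(ℝ, ℝ)) (sz ∘ rt) := by
    rw [show sz ∘ rt = Prod.map id Real.exp from funext sz_rt]
    exact IsOE.id.prodMap isOE_exp
  exact ⟨h.inj.of_comp, fun p => ld_of_comp_left (ld_sz (rt_ne p))
    contDiff_rt.continuous.continuousAt (h.loc p)⟩

theorem isOE_negC : IsOE 𝓘(ℝ, ℂ) 𝓘(ℝ, ℂ) (fun z : ℂ => -z) :=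
  IsOE.of_diffeo (ContinuousLinearEquiv.neg ℝ (M := ℂ)).toDiffeomorph

/-- every point off the positive axis has a root in the upper half plane -/
theorem exists_root (v u : ℝ) (h : v ≠ 0 ∨ u < 0) : ∃ z : ℂ, 0 < z.im ∧ sz z = (v, u) := by
  obtain ⟨z, hz⟩ := IsAlgClosed.exists_pow_nat_eq (⟨u, v⟩ : ℂ) two_pos
  have h1 : sz z = (v, u) := by rw [sz, hz]
  have h2 : z.im ≠ 0 := fun h0 => by
    have a := congrArg Prod.fst h1
    have b := congrArg Prod.snd h1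
    simp only [sz, sq_re, sq_im, h0] at a b
    rcases h with h | h
    · exact h (by rw [← a]; ring)
    · nlinarith [sq_nonneg z.re]
  rcases h2.lt_or_gt with h2 | h2
  · exact ⟨-z, by simpa using h2, (sz_neg z).trans h1⟩
  · exact ⟨z, h2, h1⟩

theorem isCompact_sz (T : ℝ) : IsCompact {z : ℂ | |z.im| ≤ 1 ∧ (z ^ 2).re ≤ T} := by
  refine Metric.isCompact_of_isClosed_isBounded ((isClosed_le Complex.continuous_im.abs
    continuous_const).inter (isClosed_le (contDiff_sz.continuous.snd) continuous_const)) ?_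
  refine (Metric.isBounded_closedBall (x := (0 : ℂ)) (r := |T| + 3)).subset fun z hz => ?_
  rw [mem_closedBall_zero_iff]
  have h1 := Complex.norm_le_abs_re_add_abs_im z
  have h2 := hz.2
  rw [sq_re] at h2
  have h3 : z.im ^ 2 ≤ 1 := by rw [← sq_abs]; nlinarith [hz.1, abs_nonneg z.im]
  have h4 : |z.re| ≤ |T| + 2 := by
    rw [← sq_abs z.re] at h2
    nlinarith [le_abs_self T, abs_nonneg z.re, abs_nonneg T, sq_nonneg (|z.re| - 1)]
  linarith [hz.1]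

variable {Y Y' : CM 3} {R : CM 2} {b b₁ b₂ : R × ℝ → Y} {b₁' b₂' : R × ℝ → Y'}

theorem ld_sq (hb : Box b) {p : R × ℂ} (h : p.2 ≠ 0) : IsLocalDiffeomorphAt IC (IR 3) ∞ (sq b) p := by
  have h1 : IsLocalDiffeomorphAt ((𝓡 2).prod (𝓘(ℝ, ℝ).prod 𝓘(ℝ, ℝ))) (IR 3) ∞
      (fun q : R × ℝ × ℝ => (b (q.1, q.2.1), q.2.2)) (p.1, sz p.2) :=
    ld_of_comp (f := fun q : (R × ℝ) × ℝ => (q.1.1, q.1.2, q.2)) (x := ((p.1, (sz p.2).1), (sz p.2).2))
      (isOE_assoc.loc _) ((hb.prodMap IsOE.id).loc _)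
  exact ld_comp (f := Prod.map id sz) h1 (ld_prodMap (ld_id p.1) (ld_sz h))

theorem continuous_sq (hb : Box b) : Continuous (sq b) :=
  (hb.continuous.comp (continuous_fst.prodMk (contDiff_sz.continuous.fst.comp continuous_snd))).prodMk
    (contDiff_sz.continuous.snd.comp continuous_snd)

theorem sq_eq (hb : Box b) {p q : R × ℂ} (e : sq b p = sq b q) : p.1 = q.1 ∧ sz p.2 = sz q.2 :=
  have h := Prod.ext_iff.1 (hb.inj (congrArg Prod.fst e))
  ⟨h.1, Prod.ext h.2 (Prod.ext_iff.1 e).2⟩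

theorem sq_inj (hb : Box b) {p q : R × ℂ} (e : sq b p = sq b q) (h : 0 < p.2.im * q.2.im) : p = q := by
  obtain ⟨h1, h2⟩ := sq_eq hb e
  refine Prod.ext h1 ((eq_or_neg_of_sz h2).resolve_right fun h3 => ?_)
  rw [h3, Complex.neg_im] at h
  nlinarith [sq_nonneg q.2.im]

theorem sq_rt (b : R × ℝ → Y) (x : R) (v s : ℝ) : sq b (x, rt (v, s)) = (b (x, v), Real.exp s) := by
  simp only [sq, rt_sq_im, rt_sq_re]

theorem sq_neg (b : R × ℝ → Y) (x : R) (z : ℂ) : sq b (x, -z) = sq b (x, z) := by simp [sq]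

namespace Sw

variable (S : Sw b₁ b₂ b₁' b₂')

theorem b₁_mem {p : R × ℝ} : b₁ p ∈ S.φ.source ↔ p.2 ≠ 0 := by
  rw [S.src, mem_compl_iff, mem_union, mem_slab S.o₁, not_or]
  exact and_iff_left fun ⟨q, _, e⟩ => S.dj _ _ e.symm

theorem b₂_mem {p : R × ℝ} : b₂ p ∈ S.φ.source ↔ p.2 ≠ 0 := by
  rw [S.src, mem_compl_iff, mem_union, mem_slab S.o₂, not_or]
  exact and_iff_right fun ⟨q, _, e⟩ => S.dj _ _ e

theorem b₁'_mem {p : R × ℝ} : b₁' p ∈ S.φ.target ↔ p.2 ≠ 0 := by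
  rw [S.tgt, mem_compl_iff, mem_union, mem_slab S.o₁', not_or]
  exact and_iff_left fun ⟨q, _, e⟩ => S.dj' _ _ e.symm

theorem b₂'_mem {p : R × ℝ} : b₂' p ∈ S.φ.target ↔ p.2 ≠ 0 := by
  rw [S.tgt, mem_compl_iff, mem_union, mem_slab S.o₂', not_or]
  exact and_iff_right fun ⟨q, _, e⟩ => S.dj' _ _ e

/-- the three kinds of points of `Y'` -/
theorem cases' (y : Y') : (∃ x ∈ S.φ.source, S.φ x = y) ∨ (∃ x, b₁' (x, 0) = y) ∨
    ∃ x, b₂' (x, 0) = y := by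
  by_cases h : y ∈ S.φ.target
  · exact .inl ⟨_, S.φ.map_target h, S.φ.right_inv h⟩
  · rw [S.tgt, mem_compl_iff, not_not] at h
    rcases h with ⟨⟨x, v⟩, ⟨-, rfl⟩, e⟩ | ⟨⟨x, v⟩, ⟨-, rfl⟩, e⟩
    exacts [.inr (.inl ⟨x, e⟩), .inr (.inr ⟨x, e⟩)]

include S in
theorem isClosed_slit (C : End Y) :
    IsClosed (C.j '' ((slab b₁ {0} ∪ slab b₂ {0}) ×ˢ Ici 0)) :=
  C.isEnd.isClosed_image (((isClosed_slab S.o₁ isCompact_singleton).union
    (isClosed_slab S.o₂ isCompact_singleton)).prod isClosed_Ici)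
    (prod_mono (subset_univ _) Subset.rfl)

theorem j_mem (C : End Y) {q : Y × ℝ} :
    C.j q ∈ (C.j '' ((slab b₁ {0} ∪ slab b₂ {0}) ×ˢ Ici 0))ᶜ ↔ q.1 ∈ S.φ.source ∨ q.2 < 0 := by
  rw [mem_compl_iff, C.oe.inj.mem_set_image, S.src, mem_prod, not_and_or, mem_Ici, not_le]
  rfl

theorem sq₁_mem {p : R × ℂ} (h : p.2.im ≠ 0) : (sq b₁ p).1 ∈ S.φ.source ∨ (sq b₁ p).2 < 0 := by
  by_cases h1 : p.2.re = 0
  · refine .inr ?_
    show (p.2 ^ 2).re < 0
    rw [sq_re, h1]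
    nlinarith [sq_pos_of_ne_zero h]
  · refine .inl (S.b₁_mem.2 ?_)
    show (p.2 ^ 2).im ≠ 0
    rw [sq_im]
    exact mul_ne_zero (mul_ne_zero two_ne_zero h1) h

theorem sq₂_mem {p : R × ℂ} (h : p.2.im ≠ 0) : (sq b₂ p).1 ∈ S.φ.source ∨ (sq b₂ p).2 < 0 :=
  (S.sq₁_mem h).imp (fun h => S.b₂_mem.2 (S.b₁_mem.1 h)) id

end Sw

/-- the data of `Op` on a bare manifold -/
structure Raw (S : Sw b₁ b₂ b₁' b₂') (C : End Y) {X : Type} [TopologicalSpace X]
    [ChartedSpace (EE 4) X] (i : PartialDiffeomorph (𝓡 4) (𝓡 4) C.X X ∞) (e : R × ℂ → X) : Prop where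
  oe : IsOE IC (𝓡 4) e
  src : i.source = (C.j '' ((slab b₁ {0} ∪ slab b₂ {0}) ×ˢ Ici 0))ᶜ
  tgt : i.target = (e '' {p | p.2.im = 0})ᶜ
  up : ∀ p : R × ℂ, 0 < p.2.im → e p = i (C.j (sq b₁ p))
  dn : ∀ p : R × ℂ, p.2.im < 0 → e p = i (C.j (sq b₂ p))

theorem Op.raw {S : Sw b₁ b₂ b₁' b₂'} {C : End Y} {C' : End Y'} (O : Op S C C') :
    Raw S C O.i O.e := ⟨O.oe, O.src, O.tgt, O.up, O.dn⟩

theorem exists_raw (S : Sw b₁ b₂ b₁' b₂') (C : End Y) :
    ∃ (X : Type) (_ : TopologicalSpace X) (_ : ChartedSpace (EE 4) X) (_ : IsManifold (𝓡 4) ∞ X)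
      (_ : T2Space X) (_ : SecondCountableTopology X)
      (i : PartialDiffeomorph (𝓡 4) (𝓡 4) C.X X ∞) (e : R × ℂ → X), Raw S C i e := by
  classical
  let f : R × ℂ → C.X := fun p => C.j (if 0 < p.2.im then sq b₁ p else sq b₂ p)
  have f1 : ∀ p : R × ℂ, 0 < p.2.im → f p = C.j (sq b₁ p) := fun p hp => congrArg C.j (if_pos hp)
  have f2 : ∀ p : R × ℂ, p.2.im < 0 → f p = C.j (sq b₂ p) := fun p hp =>
    congrArg C.j (if_neg hp.not_gt)
  have c : Continuous fun p : R × ℂ => p.2.im := Complex.continuous_im.comp continuous_snd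
  have ne : ∀ {p : R × ℂ}, p.2.im ≠ 0 → p.2 ≠ 0 := fun h h0 => h (by rw [h0]; rfl)
  have cl : ∀ {b : R × ℝ → Y}, Box b → IsClosed (C.j '' (sq b '' {p | |p.2.im| ≤ 1})) := by
    intro b hb
    refine C.isClosed_image fun T => ?_
    convert ((isCompact_univ (X := R)).prod (isCompact_sz T)).image (continuous_sq hb) using 1
    ext q
    constructor
    · rintro ⟨⟨p, hp, rfl⟩, h⟩
      exact ⟨p, ⟨mem_univ _, hp, h⟩, rfl⟩
    · rintro ⟨p, hp, rfl⟩
      exact ⟨⟨p, hp.2.1, rfl⟩, hp.2.2⟩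
  obtain ⟨X, _, _, _, _, _, i, e, he, hs, ht, hq⟩ := glue2 (J := IC) L4
    (S.isClosed_slit C).isOpen_compl (W := {p : R × ℂ | p.2.im ≠ 0}) (isOpen_ne.preimage c) (f := f)
    (fun p hp => by
      rcases hp.lt_or_gt with h | h
      · refine ld_congr (ld_comp (C.oe.loc _) (ld_sq S.o₂ (ne hp))) ?_
        filter_upwards [(isOpen_Iio.preimage c).mem_nhds h] with q hq using f2 q hq
      · refine ld_congr (ld_comp (C.oe.loc _) (ld_sq S.o₁ (ne hp))) ?_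
        filter_upwards [(isOpen_Ioi.preimage c).mem_nhds h] with q hq using f1 q hq)
    (fun p hp q hq e => by
      rcases hp.lt_or_gt with h | h <;> rcases hq.lt_or_gt with h' | h'
      · rw [f2 p h, f2 q h'] at e
        exact sq_inj S.o₂ (C.oe.inj e) (mul_pos_of_neg_of_neg h h')
      · rw [f2 p h, f1 q h'] at e
        exact (S.dj _ _ (congrArg Prod.fst (C.oe.inj e)).symm).elim
      · rw [f1 p h, f2 q h'] at e
        exact (S.dj _ _ (congrArg Prod.fst (C.oe.inj e))).elim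
      · rw [f1 p h, f1 q h'] at e
        exact sq_inj S.o₁ (C.oe.inj e) (mul_pos h h'))
    (fun p hp => by
      rcases hp.lt_or_gt with h | h
      · rw [f2 p h]; exact (S.j_mem C).2 (S.sq₂_mem hp)
      · rw [f1 p h]; exact (S.j_mem C).2 (S.sq₁_mem hp))
    (fun x hx => by
      obtain ⟨q, ⟨⟨p, -⟩ | ⟨p, -⟩, -⟩, -⟩ := not_not.1 hx <;> exact ⟨(p.1, 0)⟩)
    (B := {p | 1 ≤ |p.2.im|}) (isClosed_le continuous_const c.abs)
    (fun p (hp : 1 ≤ |p.2.im|) (h0 : p.2.im = 0) => by rw [h0, abs_zero] at hp; linarith)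
    (A := {p | |p.2.im| ≤ 1}) (fun p _ => le_total |p.2.im| 1) ((cl S.o₁).union (cl S.o₂))
    (fun p hp => by
      rcases hp.2.lt_or_gt with h | h
      · rw [f2 p h]; exact .inr ⟨_, ⟨p, hp.1, rfl⟩, rfl⟩
      · rw [f1 p h]; exact .inl ⟨_, ⟨p, hp.1, rfl⟩, rfl⟩)
    (by
      have key : ∀ p : R × ℂ, (p.2 ^ 2).im ≠ 0 ∨ (p.2 ^ 2).re < 0 → p.2.im ≠ 0 := by
        intro p hp h0
        rw [sq_re, sq_im, h0] at hp
        rcases hp with h | h
        · exact h (mul_zero _)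
        · nlinarith [sq_nonneg p.2.re]
      have ng : ∀ p : R × ℂ, |p.2.im| ≤ 1 → p.2.im ≠ 0 →
          (p.1, -p.2) ∈ {p : R × ℂ | |p.2.im| ≤ 1} ∩ {p | p.2.im ≠ 0} := fun p h h' =>
        ⟨by simpa using h, by simpa using h'⟩
      rintro _ ⟨⟨_, ⟨p, hp, rfl⟩, rfl⟩ | ⟨_, ⟨p, hp, rfl⟩, rfl⟩, h⟩
      · have h1 := key p (((S.j_mem C).1 h).imp S.b₁_mem.1 id)
        rcases h1.lt_or_gt with h2 | h2
        · exact ⟨_, ng p hp h1, (f1 _ (by simpa using h2)).trans (by rw [sq_neg])⟩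
        · exact ⟨p, ⟨hp, h1⟩, f1 p h2⟩
      · have h1 := key p (((S.j_mem C).1 h).imp S.b₂_mem.1 id)
        rcases h1.lt_or_gt with h2 | h2
        · exact ⟨p, ⟨hp, h1⟩, f2 p h2⟩
        · exact ⟨_, ng p hp h1, (f2 _ (by simpa using h2)).trans (by rw [sq_neg])⟩)
  refine ⟨X, _, _, ‹_›, ‹_›, ‹_›, i, e, he, hs, ?_, fun p hp => ?_, fun p hp => ?_⟩
  · rw [ht]
    congr 2
    ext p
    simp
  · rw [hq p hp.ne', f1 p hp]
  · rw [hq p hp.ne, f2 p hp]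

end Crest.Agent.X212.Sep15
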