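import Crest.Agent.X212.Bb31.Stm

/-!
# X212/Sep15/Cm2 (helper15): `CmStmt`; the surface statement `KillH1`
-/

set_option autoImplicit false
set_option linter.unusedSectionVars false

open Set Filter Topology Function
open scoped ContDiff Manifold
open Crest.Agent.X212.Cyl58 Crest.Agent.X212.Int54

noncomputable section

namespace Crest.Agent.X212.Sep15

theorem Lv.of_hs {σ₁ σ₂ : ℝ → ℝ} (h : Bb31.Hs σ₁ σ₂) : Lv σ₁ σ₂ :=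
  ⟨Up.of_isOE h.o₁ h.m₁.monotone, Up.of_isOE h.o₂ h.m₂.monotone,
    fun v w => (h.neg v).trans (h.pos w), h.neg 0, h.pos 0⟩

theorem exists_hs {r : ℝ} (hr : 0 < r) : ∃ σ₁ σ₂, Bb31.Hs σ₁ σ₂ ∧ (∀ v, σ₁ v ∈ Ioo (-r) 0) ∧
    ∀ v, σ₂ v ∈ Ioo 0 r :=
  let ⟨σ₁, σ₂, L, h1, h2⟩ := exists_lv hr
  ⟨σ₁, σ₂, ⟨L.u₁.isOE, L.u₂.isOE, L.u₁.strictMono, L.u₂.strictMono, fun v => (h1 v).2,
    fun v => (h2 v).1⟩, h1, h2⟩

theorem cmStmt : Bb31.CmStmt := by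
  intro Y Y' R b h b' G s t σ₁ σ₂ e H
  obtain rfl : h = ((t.symm.trans s).trans t).trans s.symm := funext e
  obtain ⟨M⟩ := exists_cm G t s (fun x => by simp) (Lv.of_hs H)
  have e1 : (fun x => (((t.symm.trans s).trans t).trans s.symm) (t x)) = s.symm ∘ t ∘ s :=
    funext fun x => by simp
  have e2 : ∀ y ∈ M.S₁.φ.source, M.S₁.φ y ∈ M.S₂.φ.source := fun y hy => by
    rw [M.S₂.src, slab_px _ (show Surjective (s : R → R) from s.surjective), ← M.S₁.tgt]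
    exact M.S₁.φ.map_source hy
  have e3 : M.S₁.φ.source = (slab b ({σ₁ 0} ∪ {σ₂ 0}))ᶜ := by
    rw [M.S₁.src, slab_sub b surjective_id, slab_sub b (t := t) t.surjective, image_singleton,
      image_singleton, slab, slab, slab, ← image_union, ← prod_union]
  have h0 : σ₁ 0 ≤ σ₂ 0 := ((H.neg 0).trans (H.pos 0)).le
  let S₂ : Sw M.c₁ (M.c₂ ∘ px s) (b' ∘ Prod.map id σ₁) (b' ∘ Prod.map (s.symm ∘ t ∘ s) σ₂) :=
    ⟨M.S₂.o₁, M.S₂.o₂, M.S₂.dj, M.S₂.o₁', e1 ▸ M.S₂.o₂', e1 ▸ M.S₂.dj', M.S₂.φ, M.S₂.src,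
      e1 ▸ M.S₂.tgt, M.S₂.lo₁, M.S₂.hi₂, e1 ▸ M.S₂.lo₂, e1 ▸ M.S₂.hi₁⟩
  refine ⟨⟨M.Y₁, M.c₁, M.c₂, M.S₁, S₂, fun p hp => ⟨e2 p (e3 ▸ fun k => hp (slab_mono b ?_ k)),
    M.out p hp⟩, fun x y hy => ⟨e2 _ (e3 ▸ fun k => ?_), M.mid (x, y) hy⟩⟩⟩
  · exact union_subset (singleton_subset_iff.2 (left_mem_Icc.2 h0))
      (singleton_subset_iff.2 (right_mem_Icc.2 h0))
  · rcases (mem_slab G.o).1 k with k | k
    exacts [hy.1.ne' k, hy.2.ne k]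

/-- finitely many positive diffeomorphisms kill `H¹ (R; ℤ)` -/
def KillH1 : Prop := ∀ (R : CM 2) (oR : Bb31.Fm 2 R), PreconnectedSpace R → Ori (𝓡 2) oR →
  ∃ (n : ℕ) (t : Fin n → Bb31.Df R), (∀ k, Bb31.Pos oR (t k)) ∧
    ∀ u : R → Circle, ContMDiff (𝓡 2) (𝓡 1) ∞ u → ∃ (v : Fin n → R → Circle) (f : R → ℝ),
      (∀ k, ContMDiff (𝓡 2) (𝓡 1) ∞ (v k)) ∧ ContMDiff (𝓡 2) 𝓘(ℝ, ℝ) ∞ f ∧
      ∀ x, u x = Circle.exp (f x) * ∏ k, v k (t k x) / v k x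

end Crest.Agent.X212.Sep15
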