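import Crest.Agent.X212.Hel3.Hel
import Crest.Agent.X212.Bb31.Fp
import Crest.Agent.X212.Orx52.Rod
import Crest.Agent.X212.Sep15.CmL
import Crest.Agent.X212.Bb31.Reg
import Crest.Agent.X212.H7.Defs
import Crest.Agent.X212.Line51.Cm

-- ▼ part X212/Hel3/Base
section

/-!
# X212/Hel3/Base (helper3): `Bb31.BaseStmt`, the cap `R × ℂ` is universal
-/

set_option autoImplicit false
set_option linter.unusedSectionVars false

open Set Filter Topology Function Metric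
open scoped ContDiff Manifold
open Crest.Agent.R208 Crest.Agent.R208.F Crest.Agent.R208.FI Crest.Agent.X212.Dr59 Crest.Agent.X212.Cyl58
open Crest.Agent.X212.Int54 (tp rat Ori SameOn)
open Crest.Agent.X212.Sep15 (EE IR IC CM End Bs)
open Crest.Agent.X212.Sym24 (pu dt sl dT)
open Crest.Agent.X212.Orx52 (oZ oC pr cy)
open Crest.Agent.X212.Bb31

noncomputable section

namespace Crest.Agent.X212.Hel3

variable {Y : CM 3} {R : CM 2}

theorem eq_rat_oZ {a : ℂ → Ext ℂ} {z : ℂ} (h : IsDeg 2 (a z)) : a z = rat oZ a z • oZ z := by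
  have e : Module.finrank ℝ ℂ = 2 := Complex.finrank_real_complex
  have k := Orx52.eq_top (c := oZ z) (e ▸ Orx52.dg_oZ (s := univ) z trivial)
  rw [Orx52.eq_top (c := a z) (e ▸ h), rat]
  conv_rhs => rw [k, smul_smul, ← k, div_mul_cancel₀ _ (oZ_ne z)]

/-- an area form on the closed disc, exact up to a term supported inside, with a primitive which
vanishes on the boundary -/
theorem exists_disc {ρ : ℝ} (hρ : 0 < ρ) : ∃ (l : ℂ → Ext ℂ) (g u : ℂ → ℝ) (r : ℝ),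
    Sm 𝓘(ℝ, ℂ) univ l ∧ Dg 1 univ l ∧ (∀ z, ‖z‖ = ρ → l z = 0) ∧ ContDiff ℝ ∞ g ∧ 0 < r ∧ r < ρ ∧
    (∀ z, r ≤ ‖z‖ → g z = 0) ∧ (∀ z, (g • oZ - dM 𝓘(ℝ, ℂ) l) z = u z • oZ z) ∧
    ∀ z, ‖z‖ ≤ ρ → 0 < u z := by
  let h : ℂ → ℝ := fun z => z.re * z.re + z.im * z.im - ρ ^ 2
  let μ : ℂ → Ext ℂ := Complex.re • df 𝓘(ℝ, ℂ) Complex.im - Complex.im • df 𝓘(ℝ, ℂ) Complex.re
  have c1 : ContMDiff 𝓘(ℝ, ℂ) 𝓘(ℝ, ℝ) ∞ Complex.re := Complex.reCLM.contDiff.contMDiff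
  have c2 : ContMDiff 𝓘(ℝ, ℂ) 𝓘(ℝ, ℝ) ∞ Complex.im := Complex.imCLM.contDiff.contMDiff
  have c3 : ContMDiff 𝓘(ℝ, ℂ) 𝓘(ℝ, ℝ) ∞ h := ((c1.mul c1).add (c2.mul c2)).sub contMDiff_const
  have s1 : Sm 𝓘(ℝ, ℂ) univ μ := ((sm_df fun z _ => c2 z).fsmul fun z _ => c1 z).sub
    ((sm_df fun z _ => c1 z).fsmul fun z _ => c2 z)
  have s2 : Sm 𝓘(ℝ, ℂ) univ (h • μ) := s1.fsmul fun z _ => c3 z
  have g2 : Dg 1 univ (h • μ) := (((dg_df _).fsmul _).sub ((dg_df _).fsmul _)).fsmul _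
  have h0 : ∀ z, ‖z‖ = ρ → h z = 0 := fun z hz => by
    simp only [h]
    rw [← Complex.normSq_apply, Complex.normSq_eq_norm_sq, hz, sub_self]
  have cu : Continuous (rat oZ (dM 𝓘(ℝ, ℂ) (h • μ))) := continuous_iff_continuousAt.2 fun z =>
    Orx52.contAt_rat (Orx52.ori_oZ.sm z) (oZ_ne z) (s2 z trivial).dM
  have bd : ∀ z, ‖z‖ = ρ → 0 < rat oZ (dM 𝓘(ℝ, ℂ) (h • μ)) z := fun z hz => by
    have d : HasFDerivAt h ((2 * z.re) • Complex.reCLM + (2 * z.im) • Complex.imCLM) z := by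
      rw [two_mul, two_mul, add_smul, add_smul]
      exact ((Complex.reCLM.hasFDerivAt.mul Complex.reCLM.hasFDerivAt).add
        (Complex.imCLM.hasFDerivAt.mul Complex.imCLM.hasFDerivAt)).sub_const (ρ ^ 2)
    have e : dM 𝓘(ℝ, ℂ) (h • μ) z = (2 * ρ ^ 2) • oZ z := by
      have e1 : df 𝓘(ℝ, ℂ) h z =
          (2 * z.re) • df 𝓘(ℝ, ℂ) Complex.re z + (2 * z.im) • df 𝓘(ℝ, ℂ) Complex.im z := by
        rw [df, df, df, mf_eq_fderiv, mf_eq_fderiv, mf_eq_fderiv, d.fderiv,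
          show Complex.re = Complex.reCLM from rfl, show Complex.im = Complex.imCLM from rfl,
          ContinuousLinearMap.fderiv, ContinuousLinearMap.fderiv, ← map_smul, ← map_smul, ← map_add]
        rfl
      have e2 := h0 z hz
      rw [dM_fsmul ne0 (c3.mdifferentiable ne0 z) (s1 z trivial), e2, zero_smul, add_zero, e1]
      simp only [μ, oZ, df, Pi.sub_apply, Pi.smul_apply', Pi.mul_apply, add_mul, mul_sub,
        smul_mul_smul_comm, io_sq, smul_zero,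
        io_anti (mf 𝓘(ℝ, ℂ) 𝓘(ℝ, ℝ) Complex.im z : ℂ →ₗ[ℝ] ℝ) (mf 𝓘(ℝ, ℂ) 𝓘(ℝ, ℝ) Complex.re z)]
      simp only [h] at e2
      linear_combination (norm := module) (2 * e2) • (io (mf 𝓘(ℝ, ℂ) 𝓘(ℝ, ℝ) Complex.re z :
        ℂ →ₗ[ℝ] ℝ) * io (mf 𝓘(ℝ, ℂ) 𝓘(ℝ, ℝ) Complex.im z : ℂ →ₗ[ℝ] ℝ))
    rw [rat, e, map_smul, smul_eq_mul, mul_div_cancel_right₀ _ (oZ_ne z)]
    positivity
  obtain ⟨r, ⟨r0, r1⟩, hr⟩ := exists_pos_lt_subset_ball hρ
    (s := closedBall (0 : ℂ) ρ ∩ rat oZ (dM 𝓘(ℝ, ℂ) (h • μ)) ⁻¹' Iic 0)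
    (isClosed_closedBall.inter (isClosed_Iic.preimage cu)) fun z hz => mem_ball_zero_iff.2
      ((mem_closedBall_zero_iff.1 hz.1).lt_of_ne fun e => (bd z e).not_ge hz.2)
  let f : ContDiffBump (0 : ℂ) := ⟨r, (r + ρ) / 2, r0, by linarith⟩
  obtain ⟨n, hn⟩ := (exists_large (isCompact_closedBall (0 : ℂ) ρ) (fun z _ => cu.continuousAt)
    (G := f) (fun z _ => f.continuous.continuousAt) (fun z _ => f.nonneg) fun z hz =>
      or_iff_not_imp_right.2 fun k => by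
        rw [f.one_of_mem_closedBall (ball_subset_closedBall (hr ⟨hz, not_lt.1 k⟩))]
        exact one_pos).exists
  refine ⟨-(h • μ), fun z => n * f z, fun z => rat oZ (dM 𝓘(ℝ, ℂ) (h • μ)) z + n * f z, (r + ρ) / 2,
    s2.neg, g2.neg, fun z hz => by simp [h0 z hz], contDiff_const.mul f.contDiff, by linarith,
    by linarith, fun z hz => mul_eq_zero_of_right _ (f.zero_of_le_dist (by simpa using hz)), fun z => ?_,
    fun z hz => hn z (mem_closedBall_zero_iff.2 hz)⟩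
  rw [dM_neg, sub_neg_eq_add, Pi.add_apply, add_smul, ← eq_rat_oZ (g2.dM isOpen_univ z trivial),
    add_comm]
  rfl

/-- the universal property on `R × ℂ` -/
theorem exists_gd {o : Fm 2 R} (ho : Ori (𝓡 2) o) {ρ : ℝ} (hρ : 0 < ρ) {ι : Type} [Finite ι]
    {c : ι → Fc R} (hc : ∀ q, Cl IC 2 univ (c q)) (hp : ∀ q, ∃ r < ρ, FP o (c q) {z | r < ‖z‖}) :
    ∃ (v : Fc R) (la : ι → Fc R) (r : ℝ), Cl IC 2 univ v ∧ 0 < r ∧ r < ρ ∧
      (∀ p : R × ℂ, r ≤ ‖p.2‖ → v p = 0) ∧ (∀ q, Sm IC univ (la q) ∧ Dg 1 univ (la q)) ∧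
      (∀ q (p : R × ℂ), ‖p.2‖ = ρ → la q p = 0) ∧ ∀ q q', ∀ p : R × ℂ, ‖p.2‖ ≤ ρ →
        0 < rat (oP o) ((c q + v - dM IC (la q)) * (c q' + v - dM IC (la q'))) p := by
  choose r r1 r2 using hp
  choose la Q l1 l2 _ l4 l5 l6 using fun q => exists_fp ho (hc q) (isCompact_closedBall 0 ρ)
    (isOpen_lt continuous_const continuous_norm) (isOpen_ball (x := 0) (ε := ρ)) (r2 q)
    ⟨ρ, by simpa [abs_of_pos hρ] using r1 q⟩ fun z _ => (lt_or_ge (r q) ‖z‖).imp id fun h =>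
      mem_ball_zero_iff.2 (h.trans_lt (r1 q))
  obtain ⟨l, g, u, s, d1, d2, d3, d4, s0, s1, d5, d6, d7⟩ := exists_disc hρ
  have sl : Sm IC univ (ar R l) := d1.pm mp_snd'
  have e : ∀ p, (ar R (g • oZ) - dM IC (ar R l)) p = u p.2 • ar R oZ p := fun p => by
    rw [Pi.sub_apply, ar, ar, dM_pm ne0 contMDiffAt_snd (d1 _ trivial), ← Pi.sub_apply, ← pm_sub,
      pm_apply, d6, map_smul, ← pm_apply]
    rfl
  have pos : ∀ q, ∀ p ∈ (univ : Set R) ×ˢ closedBall (0 : ℂ) ρ,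
      0 < rat (oP o) ((c q - dM IC (la q)) * (ar R (g • oZ) - dM IC (ar R l))) p := fun q p hp => by
    have k := rat_mul_ar o (c q - dM IC (la q)) p
    rw [rat, Pi.mul_apply] at k ⊢
    rw [e, mul_smul_comm, map_smul, smul_eq_mul, mul_div_assoc, k]
    exact mul_pos (d7 _ (mem_closedBall_zero_iff.1 hp.2)) (l6 q _ hp.2 _)
  obtain ⟨n, -, hn⟩ := thurston (w := fun q => c q - dM IC (la q))
    (γ := ar R (g • oZ) - dM IC (ar R l)) (isCompact_univ.prod (isCompact_closedBall (0 : ℂ) ρ))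
    (Orx52.ori_pr ho Orx52.ori_oZ) (fun q => ((hc q).sm.sub (l1 q).dM).mono (subset_univ _))
    (((cl_ar d4).sm.sub sl.dM).mono (subset_univ _))
    (((cl_ar d4).dg.sub ((d2.pm (mapsTo_univ _ _)).dM isOpen_univ)).mono (subset_univ _))
    (fun p _ => by
      rw [e, smul_mul_smul_comm, ar_mul_ar (Orx52.dg_oZ (s := univ) _ trivial), smul_zero])
    (fun q p hp => (pos q p hp).le) fun p hp => .inl fun q => pos q p hp
  refine ⟨n • ar R (g • oZ), fun q => la q + n • ar R l, s, (cl_ar d4).smul n, s0, s1, fun p hp => by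
    rw [Pi.smul_apply, ar_smul, d5 _ hp, zero_smul, smul_zero], fun q => ⟨(l1 q).add (sl.smul n),
    (l2 q).add ((d2.pm (mapsTo_univ _ _)).smul n)⟩, fun q p hp => ?_, fun q q' p hp => ?_⟩
  · show la q p + n • ar R l p = 0
    rw [ar_apply, d3 _ hp, map_zero, smul_zero, add_zero]
    exact l5 q p fun h => (mem_ball_zero_iff.1 (l4 q h)).ne hp
  · have k : ∀ q, (c q + n • ar R (g • oZ) - dM IC (la q + n • ar R l)) p =
        (c q - dM IC (la q) + n • (ar R (g • oZ) - dM IC (ar R l))) p := fun q => by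
      simp only [Pi.add_apply, Pi.sub_apply, Pi.smul_apply, smul_sub,
        dM_add ne0 (l1 q p trivial) ((sl p trivial).smul n), dM_smul ne0 n (sl p trivial)]
      abel
    have := hn q q' p ⟨trivial, mem_closedBall_zero_iff.2 hp⟩
    rwa [rat, Pi.mul_apply, ← k, ← k] at this

/-- polar coordinates on `R × ℂ` -/
def pl (p : (R × Circle) × ℝ) : R × ℂ := (p.1.1, (Real.exp p.2 : ℝ) * (p.1.2 : ℂ))

/-- the model of `R × S¹` -/
abbrev IS : ModelWithCorners ℝ (EE 2 × EE 1) (ModelProd (EE 2) (EE 1)) := (𝓡 2).prod (𝓡 1)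

theorem sm_exp : ContMDiff (IS.prod 𝓘(ℝ, ℝ)) 𝓘(ℝ, ℝ) ∞ fun p : (R × Circle) × ℝ => Real.exp p.2 :=
  Real.contDiff_exp.contMDiff.comp contMDiff_snd

theorem sm_pl : ContMDiff (IS.prod 𝓘(ℝ, ℝ)) IC ∞ (pl : (R × Circle) × ℝ → _) :=
  (contMDiff_fst.comp contMDiff_fst).prodMk fun p => Pj41.FSm.mul' (Pj41.FSm.ofReal (sm_exp p))
    ((Glue52.contMDiff_circle_coe.comp (contMDiff_snd.comp contMDiff_fst)) p)

theorem pos_pl {o : Fm 2 R} (ho : Ori (𝓡 2) o) (hd : Dg 2 univ o) :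
    Orx52.Pos (IS.prod 𝓘(ℝ, ℝ)) IC pl univ (cy (pr o oC)) (oP o) := by
  refine Orx52.pos_of_eq (Orx52.oriOn (Orx52.ori_cy (Orx52.ori_pr ho Orx52.ori_oC)) _)
    (c := fun p => Real.exp p.2 * Real.exp p.2) (fun p _ => by positivity) fun p _ => ?_
  have h1 := Orx52.pm_oZ_polar (sm_exp p) ((contMDiff_snd.comp contMDiff_fst) p)
  have h2 := Orx52.df_snd_comp (J := IS) (z := p) (Real.hasDerivAt_exp p.2)
  have h3 := Orx52.pm_oC (((contMDiff_snd (I := 𝓡 2) (J := 𝓡 1)).comp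
    (contMDiff_fst (J := 𝓘(ℝ, ℝ)))).mdifferentiable ne0 p)
  rw [Orx52.pm_pr (sm_pl.mdifferentiable ne0 p), Orx52.cy_eq IS, Pi.mul_apply,
    Orx52.pm_pr mdifferentiableAt_fst, h3, Sym24.df_snd, ← mul_assoc,
    Sym24.comm2 (c := pm _ _ (Prod.fst ∘ Prod.fst) o p) ((hd _ trivial).pb _), mul_assoc]
  refine (congrArg _ h1).trans ?_
  rw [show (fun p : (R × Circle) × ℝ => Real.exp p.2) = Real.exp ∘ Prod.snd from rfl, h2,
    smul_mul_assoc, smul_smul, mul_smul_comm]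
  rfl

theorem fib_pos {o β τ : Fm 3 Y} {oR : Fm 2 R} {f : R × Circle → Y} {p : R × Circle}
    (hf : IsLocalDiffeomorphAt IS (𝓡 3) ∞ f p) (h : SameOn (pm IS (𝓡 3) f o) (pr oR oC) univ)
    (hτ : ∃ c > (0 : ℝ), pm IS (𝓡 3) f τ p = c • pm IS (𝓡 1) Prod.snd oC p)
    (hβ : 0 < rat o (β * τ) (f p)) : 0 < rat oR (pm (𝓡 2) (𝓡 3) (fun x => f (x, p.2)) β) p.1 := by
  obtain ⟨c, c0, e⟩ := hτ
  borelize Circle
  have k := Int54.rat_mul_snd (I := 𝓡 2) (J := 𝓡 1) (o := oR) (o' := oC) (b := oC) (fun y l =>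
    Sym24.eq_zero_of_deg ((Orx52.dg_oC (s := univ) y trivial).io_mul l) (by simp))
    (pm IS (𝓡 3) f β) p.1 p.2
  have k1 := (pos_ld hf (h p trivial) _).1 hβ
  rw [rat, pm_mul, Pi.mul_apply, e, mul_smul_comm, map_smul, smul_eq_mul, mul_div_assoc] at k1
  have k2 := ((pos_iff_pos_of_mul_pos k1).1 c0).trans_eq k
  rw [Int54.rat_self (Orx52.ori_oC.ne _), mul_one] at k2
  rwa [rat, Int54.sl, pm_comp (f := fun x : R => (x, p.2)) (hf.mdifferentiableAt ne0)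
    (mdifferentiableAt_id.prodMk mdifferentiableAt_const)] at k2

theorem pm_g_symm {X : Type} [TopologicalSpace X] [ChartedSpace (EE 4) X] [IsManifold (𝓡 4) ∞ X]
    (g : (R × ℂ) ≃ₘ^∞⟮IC, 𝓡 4⟯ X) (a : Fc R) : pm IC (𝓡 4) g (pm (𝓡 4) IC g.symm a) = a :=
  funext fun p => Orx52.pm_pm_inv (g.isLocalDiffeomorph p) (Eventually.of_forall g.symm_apply_apply) a

theorem base0 (C : End Y) (f : (R × Circle) ≃ₘ^∞⟮IS, 𝓡 3⟯ Y) (g : (R × ℂ) ≃ₘ^∞⟮IC, 𝓡 4⟯ C.X) (c : ℝ)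
    (eq : ∀ x (θ : Circle) (t : ℝ), C.j (f (x, θ), t) = g (x, Real.exp (t + c) * θ))
    {o β τ : Fm 3 Y} {oR : Fm 2 R} (hR : Ori (𝓡 2) oR)
    (h : SameOn (pm IS (𝓡 3) f o) (pr oR oC) univ)
    (hτ : ∀ p, ∃ c > (0 : ℝ), pm IS (𝓡 3) f τ p = c • pm IS (𝓡 1) Prod.snd oC p) :
    UC0 C (pm (𝓡 4) IC g.symm (oP oR)) (AA o β univ τ) {0} := by
  intro ι _ ζ a hζ ha he
  have gl := g.isLocalDiffeomorph
  have gi := pm_g_symm g
  have gm : Mp (𝓡 4) IC univ univ g.symm := .of_contMDiff g.symm.contMDiff (mapsTo_univ _ _)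
  have nj : ∀ (y : Y) (t : ℝ), ‖(g.symm (C.j (y, t))).2‖ = Real.exp (t + c) := fun y t => by
    obtain ⟨⟨x, θ⟩, rfl⟩ := EquivLike.surjective f y
    rw [eq, g.symm_apply_apply, norm_mul, Circle.norm_coe, mul_one, Complex.norm_real,
      Real.norm_of_nonneg (Real.exp_pos _).le]
  obtain ⟨v, la, r, v1, r0, r1, v2, l1, l2, l3⟩ := exists_gd hR (Real.exp_pos c)
    (c := fun q => pm IC (𝓡 4) g (ζ q))
    (fun q => (hζ q).pm (.of_contMDiff g.contMDiff (mapsTo_univ _ _))) fun q => by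
      obtain ⟨ε, e0, e⟩ := he q
      refine ⟨Real.exp (c - ε), Real.exp_lt_exp.2 (by linarith), fun z hz x => ?_⟩
      have z0 : 0 < ‖z‖ := (Real.exp_pos _).trans hz
      have m : ContMDiff (𝓡 2) (IR 3) ∞ fun x : R => (f (x, Glue52.dir z), Real.log ‖z‖ - c) :=
        (f.contMDiff.comp (contMDiff_id.prodMk contMDiff_const)).prodMk contMDiff_const
      have k : (fun x : R => g (x, z)) =
          C.j ∘ fun x : R => (f (x, Glue52.dir z), Real.log ‖z‖ - c) := funext fun x => by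
        simp only [comp, sub_add_cancel, eq, Real.exp_log z0, Glue52.norm_mul_dir]
      have k1 := fib_pos (f.isLocalDiffeomorph (x, Glue52.dir z)) h (hτ _) ((ha q).2.2 _ trivial)
      rw [rat, sz_pm ((gl _).mdifferentiableAt ne0), k, ← pm_comp
        (C.oe.contMDiff.mdifferentiable ne0 _) (m.mdifferentiable ne0 x),
        pm_congr_right (b := pu (a q)) (e _ (by
          have := (Real.lt_log_iff_exp_lt z0).2 hz
          show -ε < Real.log ‖z‖ - c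
          linarith)), ← Sym24.pm_fst (I := 𝓡 3),
        pm_comp mdifferentiableAt_fst (m.mdifferentiable ne0 x)]
      exact k1
  refine ⟨0, rfl, pm (𝓡 4) IC g.symm v, v1.pm gm, ⟨c - Real.log r, sub_pos.2
    ((Real.log_lt_iff_lt_exp r0).2 r1), fun p hp => ?_⟩, fun q => pm (𝓡 4) IC g.symm (la q),
    fun q => ⟨(l1 q).1.pm gm, (l1 q).2.pm (mapsTo_univ _ _)⟩, fun q => funext fun y => ?_,
    fun q q' x hx => ?_⟩
  · rw [pm_apply, pm_apply, v2 _ (by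
      rw [nj p.1 p.2]
      exact (Real.log_le_iff_le_exp r0).1 (by linarith))]
    simp [pu]
  · simp only [sl, pm_apply, l2 q _ ((nj y 0).trans (by rw [zero_add])), map_zero, Pi.zero_apply]
  · obtain ⟨p, rfl⟩ := EquivLike.surjective g x
    have k : ∀ q, pm IC (𝓡 4) g (ζ q + pm (𝓡 4) IC g.symm v -
        dM (𝓡 4) (pm (𝓡 4) IC g.symm (la q))) p =
        (pm IC (𝓡 4) g (ζ q) + v - dM IC (la q)) p := fun q => by
      rw [pm_sub, pm_add, gi, Pi.sub_apply, Pi.sub_apply, ← dM_pm ne0 (g.contMDiff p)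
        ((l1 q).1.pm gm _ trivial), gi]
    refine lt_of_lt_of_eq (l3 q q' p (not_lt.1 fun hp => hx ?_)) ?_
    · have z0 : 0 < ‖p.2‖ := (Real.exp_pos _).trans hp
      refine ⟨(f (p.1, Glue52.dir p.2), Real.log ‖p.2‖ - c),
        ⟨trivial, sub_pos.2 ((Real.lt_log_iff_exp_lt z0).2 hp)⟩, ?_⟩
      simp only [sub_add_cancel, eq, Real.exp_log z0, Glue52.norm_mul_dir]
    · refine Eq.trans ?_ (rat_ld (gl p) _ _)
      rw [gi, pm_mul, rat, rat, Pi.mul_apply, Pi.mul_apply, k, k]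

theorem base' {C : End Y} (B : Bs R C) {o β τ : Fm 3 Y} {oR : Fm 2 R} (hR : Ori (𝓡 2) oR)
    (hd : Dg 2 univ oR) (h : SameOn (pm IS (𝓡 3) B.f o) (pr oR oC) univ)
    (hτ : ∀ p, ∃ c > (0 : ℝ), pm IS (𝓡 3) B.f τ p = c • pm IS (𝓡 1) Prod.snd oC p) :
    OC C o (AA o β univ τ) := by
  have ej : C.j ∘ Prod.map B.f id = B.g ∘ pl := funext fun p => B.eq p.1.1 p.1.2 p.2
  refine ⟨pm (𝓡 4) IC B.g.symm (oP oR), Orx52.ori_pm (Orx52.ori_pr hR Orx52.ori_oZ)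
    B.g.symm.isLocalDiffeomorph, ?_, fun c =>
    base0 (sh C c) B.f B.g c (fun x θ t => B.eq x θ (t + c)) hR h hτ⟩
  have k := Orx52.Pos.cy (t := univ) h (fun y _ => B.f.isLocalDiffeomorph y)
    (fun x _ => hasDerivAt_id x) fun _ _ => one_pos
  rw [univ_prod_univ] at k
  have k1 : Orx52.Pos (IS.prod 𝓘(ℝ, ℝ)) (𝓡 4) (C.j ∘ Prod.map B.f id) univ (cy (pr oR oC))
      (pm (𝓡 4) IC B.g.symm (oP oR)) := fun p _ => by
    rw [ej, ← pm_comp ((B.g.isLocalDiffeomorph _).mdifferentiableAt ne0)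
      (sm_pl.mdifferentiable ne0 p), pm_g_symm]
    exact pos_pl hR hd p trivial
  have k2 := k1.of_comp k (fun y _ => C.oe.loc _)
    fun y _ => ld_prodMap (B.f.isLocalDiffeomorph _) (ld_id _)
  rwa [image_univ_of_surjective ((EquivLike.surjective B.f).prodMap surjective_id)] at k2

/-- **`BASE*`** -/
theorem base : BaseStmt := by
  intro Y R C B o β τ oR _ hR h hτ
  have e : ∀ x, tp (EE 2) (dp 2 oR x) = tp (EE 2) (oR x) := fun x => by
    simpa using Orx52.tp_dp oR x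
  refine base' B (oR := dp 2 oR) ⟨fun x => (hR.sm x).dp 2, fun x => (e x).trans_ne (hR.ne x)⟩
    (fun x _ => T.isDeg_dpl _ _) (fun p _ => ?_) hτ
  rw [Orx52.tp_pr, e, ← Orx52.tp_pr]
  exact h p trivial

end Crest.Agent.X212.Hel3
end
end

-- ▼ part X212/Sep15/Top

/-!
# X212/Sep15/Top (helper15): the cap of `R × S¹` over which all lines extend

`Tw` (twisting a line along a box by a circle valued function), `KL`, `baseQ`.
-/

set_option autoImplicit false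
set_option linter.unusedSectionVars false
set_option maxHeartbeats 200000

open Set Filter Topology Function Matrix
open scoped ContDiff Manifold
open Crest.Agent.R208.F Crest.Agent.X212.Dr59 Crest.Agent.X212.Cyl58 Crest.Agent.X212.Pj41
  Crest.Agent.X212.Line51 Crest.Agent.X212.Int54
open Crest.Agent.X212.Bb31 (OE Df Fm Pos OC AA Mt Cy Dy)

noncomputable section

namespace Crest.Agent.X212.Sep15

variable {Y : CM 3} {R : CM 2} {κ κ' κ'' μ : Type} [Fintype κ] [Fintype κ'] [Fintype κ''] [Fintype μ]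
  {b : R × ℝ → Y} {m : R → Matrix μ μ ℂ} {l : Y → Matrix κ κ ℂ} {l' : Y → Matrix κ' κ' ℂ}
  {l'' : Y → Matrix κ'' κ'' ℂ} {a : R × ℝ → Matrix κ μ ℂ} {a' : R × ℝ → Matrix κ' μ ℂ}
  {a'' : R × ℝ → Matrix κ'' μ ℂ} {u u' : R → Circle}

/-- smooth circle valued functions -/
abbrev SC (u : R → Circle) : Prop := ContMDiff (𝓡 2) (𝓡 1) ∞ u

/-- `l'` is `l` twisted by `u` along the box `b` -/
structure Tw (b : R × ℝ → Y) (m : R → Matrix μ μ ℂ) (u : R → Circle) (l : Y → Matrix κ κ ℂ)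
    (a : R × ℝ → Matrix κ μ ℂ) (l' : Y → Matrix κ' κ' ℂ) (a' : R × ℝ → Matrix κ' μ ℂ) : Prop where
  t : Tr b (Ioo (-1) 1) m l a
  t' : Tr b (Ioo (-1) 1) m l' a'
  ex : ∃ w, Uni (𝓡 3) l l' w (slab b {0})ᶜ ∧ ∀ p : R × ℝ, p.2 ∈ Ioo (-1 : ℝ) 1 →
    (p.2 < 0 → w (b p) * a p = a' p) ∧ (0 < p.2 → w (b p) * a p = (u p.1 : ℂ) • a' p)

theorem Tw.trans (h : Tw b m u l a l' a') (h' : Tw b m u' l' a' l'' a'') :
    Tw b m (u * u') l a l'' a'' := by
  obtain ⟨w, h1, h2⟩ := h.ex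
  obtain ⟨w', h3, h4⟩ := h'.ex
  refine ⟨h.t, h'.t', _, h1.trans h3, fun p hp => ⟨fun k => ?_, fun k => ?_⟩⟩
  · rw [Matrix.mul_assoc, (h2 p hp).1 k, (h4 p hp).1 k]
  · rw [Matrix.mul_assoc, (h2 p hp).2 k, Matrix.mul_smul, (h4 p hp).2 k, smul_smul, Pi.mul_apply,
      Circle.coe_mul]

theorem Tw.symm (hb : Box b) (h : Tw b m u l a l' a') : Tw b m u⁻¹ l' a' l a := by
  obtain ⟨w, h1, h2⟩ := h.ex
  have k1 : ∀ p : R × ℝ, p.2 ∈ Ioo (-1 : ℝ) 1 → p.2 ≠ 0 → (w (b p))ᴴ * (w (b p) * a p) = a p :=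
    fun p hp k => by
      rw [← Matrix.mul_assoc, (h1.iso _ fun e => k ((mem_slab hb).1 e)).src,
        (h.t.iso p ⟨trivial, hp⟩).left]
  refine ⟨h.t', h.t, _, h1.symm, fun p hp => ⟨fun k => ?_, fun k => ?_⟩⟩
  · rw [← (h2 p hp).1 k, k1 p hp k.ne]
  · rw [← k1 p hp k.ne', (h2 p hp).2 k, Matrix.mul_smul, smul_smul, Pi.inv_apply, Circle.coe_inv,
      inv_mul_cancel₀ (Circle.coe_ne_zero _), one_smul]

theorem Tw.refl (hl : Pl (𝓡 3) l univ) (t : Tr b (Ioo (-1) 1) m l a) : Tw b m 1 l a l a :=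
  ⟨t, t, l, hl.refl.mono (subset_univ _), fun p hp => ⟨fun _ => (t.iso p ⟨trivial, hp⟩).left,
    fun _ => by simpa using (t.iso p ⟨trivial, hp⟩).left⟩⟩

theorem Tw.rgL (h : Tw b m u l a l' a') {G : Rg b id b} (hG : ∀ y, G.φ y = y) :
    ∃ w, RgL G (Ioo (-1) 1) m l l' a a' w fun x => (u x : ℂ) • m x := by
  obtain ⟨w, h1, h2⟩ := h.ex
  refine ⟨w, h.t, h.t', G.src ▸ uni_congr h1 (fun _ _ => rfl) fun y _ => by rw [hG],
    fun p hp => (h2 p hp).1, fun p hp k => ?_⟩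
  rw [(h2 p hp).2 k, Matrix.mul_smul]
  exact congrArg _ (h.t'.iso p ⟨trivial, hp⟩).idem.symm

theorem exists_tw {G : Rg b id b} (hG : ∀ y, G.φ y = y) (hm : Pl (𝓡 2) m univ)
    (hl : Pl (𝓡 3) l' univ) (t' : Tr b (Ioo (-1) 1) m l' a') (hu : SC u) :
    ∃ (n : Type) (_ : Fintype n) (l : Y → Matrix n n ℂ) (a : R × ℝ → Matrix n μ ℂ),
      Pl (𝓡 3) l univ ∧ Tw b m u l a l' a' := by
  obtain ⟨n, i, l, a, w, h1, L⟩ := exists_rgL G contMDiff_id isOpen_Ioo (by norm_num) hm hl t'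
    (uni_smul hm.refl fun x _ => hu x)
  refine ⟨n, i, l, a, h1, L.t, t', w, G.src ▸ uni_congr L.hw (fun _ _ => rfl) fun y _ => by rw [hG],
    fun p hp => ⟨L.lo p hp, fun k => ?_⟩⟩
  rw [L.hi p hp k, Matrix.mul_smul]
  exact congrArg _ (t'.iso p ⟨trivial, hp⟩).idem

theorem Tw.uni (hb : Box b) {f : R → ℝ} (hf : ContMDiff (𝓡 2) 𝓘(ℝ, ℝ) ∞ f)
    (h : Tw b m (fun x => Circle.exp (f x)) l a l' a') : ∃ v, Uni (𝓡 3) l l' v univ := by
  obtain ⟨w, h1, h2⟩ := h.ex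
  let χ : R × ℝ → Circle := fun p => Circle.exp (Real.smoothTransition (2 * p.2) * f p.1)
  have hχ : ContMDiff (IR 2) (𝓡 1) ∞ χ := contMDiff_circleExp.comp fun p => FSm.mul'
    (((Real.smoothTransition.contDiff.comp (contDiff_const.mul contDiff_id)).contMDiff.comp
      contMDiff_snd) p) ((hf.comp contMDiff_fst) p)
  have o := hb.oe (isOpen_Ioo (a := -1) (b := 1))
  have o' := (isClosed_slab hb (isCompact_Icc (a := 0) (b := 2⁻¹))).isOpen_compl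
  have s : (slab b (Icc 0 2⁻¹))ᶜ ⊆ (slab b {0})ᶜ :=
    compl_subset_compl.2 (slab_mono b (by norm_num))
  obtain ⟨v, v1, v2⟩ := exists_fun2 (injOn_id (slab b (Icc 0 2⁻¹))ᶜ) o.inj (a := w)
    (c := fun p => (χ p : ℂ) • (a' p * (a p)ᴴ)) fun y hy p hp e => by
      obtain rfl : y = b p := e
      have k : w (b p) = w (b p) * a p * (a p)ᴴ := by
        rw [Matrix.mul_assoc, (h.t.iso p hp).tgt, (h1.iso _ (s hy)).idem]
      rcases not_and_or.1 (fun k : 0 ≤ p.2 ∧ p.2 ≤ 2⁻¹ => hy ((mem_slab hb).2 k)) with k1 | k1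
      · rw [k, (h2 p hp.2).1 (not_le.1 k1)]
        simp [χ, Real.smoothTransition.zero_of_nonpos (show 2 * p.2 ≤ 0 by linarith)]
      · rw [k, (h2 p hp.2).2 (by linarith), Matrix.smul_mul]
        simp [χ, Real.smoothTransition.one_of_one_le (show 1 ≤ 2 * p.2 by linarith)]
  refine ⟨v, (uni_union ⟨fun y hy => (h1.sm y (s hy)).congr (eventually_of_mem (o'.mem_nhds hy) v1),
    fun y hy => (v1 y hy).symm ▸ h1.iso y (s hy)⟩
    (uni_oe o v2 (uni_smul (h.t.symm.trans h.t') fun p _ => hχ p))).mono fun y _ => ?_⟩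
  exact (_root_.em _).symm.imp id fun k => slab_mono b (Icc_subset_Ioo (by norm_num) (by norm_num)) k

theorem exists_scalar {X : R → Matrix μ μ ℂ} (hm : Pl (𝓡 2) m univ) (h : Uni (𝓡 2) m m X univ) :
    ∃ u : R → Circle, SC u ∧ ∀ x, X x = (u x : ℂ) • m x := by
  have k : ∀ x, X x = (X x).trace • m x := fun x => by
    have := Line51.rank_one (hm.prj x trivial) (hm.tr x trivial) (X x)
    rwa [(h.iso x trivial).left, (h.iso x trivial).idem] at this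
  have k1 : ∀ x, (X x).trace ∈ Metric.sphere (0 : ℂ) 1 := fun x => by
    have := congrArg trace (h.iso x trivial).src
    rw [k x, conjTranspose_smul, Matrix.smul_mul, Matrix.mul_smul, smul_smul, (hm.prj x trivial).herm,
      (hm.prj x trivial).idem, trace_smul, hm.tr x trivial, smul_eq_mul, mul_one, Complex.star_def,
      Complex.conj_mul', ← Complex.ofReal_pow, Complex.ofReal_eq_one] at this
    rwa [mem_sphere_zero_iff_norm, ← sq_eq_sq₀ (norm_nonneg _) zero_le_one, one_pow]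
  have : Fact (Module.finrank ℝ ℂ = 1 + 1) := ⟨Complex.finrank_real_complex⟩
  exact ⟨fun x => ⟨_, k1 x⟩, ContMDiff.codRestrict_sphere (fun x => (h.sm x trivial).trace) k1, k⟩

/-- a line which is trivial along two complementary boxes is a twisted pull-back -/
theorem base_tw {c : R × ℝ → Y} (hc : Box c) (e : ∀ x y, y ≠ 0 → b (x, y) = c (x, -y⁻¹))
    (rc : range c = (slab b {0})ᶜ) (hm : Pl (𝓡 2) m univ) (t' : Tr b univ m l' a')
    {m' : R → Matrix κ κ ℂ} (hm' : Pl (𝓡 2) m' univ) {g : R × ℝ → Matrix κ' κ ℂ}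
    (hg : Tr c univ m' l' g) {π : Y → R} (π1 : ∀ p, π (b p) = p.1) (π2 : ∀ p, π (c p) = p.1) :
    ∃ u, SC u ∧ Tw b m u (fun y => m (π y)) (fun p => m p.1) l' a' := by
  rw [Tr, univ_prod_univ] at t' hg
  let γ : ℝ → ℝ := fun s => 2⁻¹ + Real.smoothTransition (2 * s - 1) * (s - 2⁻¹)
  have γ1 : ∀ s, 1 ≤ s → γ s = s := fun s hs => by
    simp [γ, Real.smoothTransition.one_of_one_le (show 1 ≤ 2 * s - 1 by linarith)]
  have γ2 : ∀ s, s ≤ 2⁻¹ → (γ s)⁻¹ = 2 := fun s hs => by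
    simp [γ, Real.smoothTransition.zero_of_nonpos (show 2 * s - 1 ≤ 0 by linarith)]
  have γ3 : ∀ s, γ s ≠ 0 := fun s => by
    rcases le_total s 2⁻¹ with hs | hs
    · exact fun h0 => two_ne_zero ((γ2 s hs).symm.trans (by rw [h0, _root_.inv_zero]))
    · exact (add_pos_of_pos_of_nonneg (by norm_num) (mul_nonneg (Real.smoothTransition.nonneg _)
        (sub_nonneg.2 hs))).ne'
  have γ4 : ContDiff ℝ ∞ fun s => (γ s)⁻¹ := (contDiff_const.add ((Real.smoothTransition.contDiff.comp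
    ((contDiff_const.mul contDiff_id).sub contDiff_const)).mul (contDiff_id.sub contDiff_const))).inv γ3
  let k : R × ℝ → Matrix κ μ ℂ := fun p => (g (p.1, -p.2⁻¹))ᴴ * a' p
  have hk : Uni (IR 2) (fun p => m p.1) (fun p => m' p.1) k {p | p.2 ≠ 0} :=
    (t'.mono (subset_univ _)).trans (uni_congr (hg.symm.comp (f := fun p : R × ℝ => (p.1, -p.2⁻¹))
      ⟨fun p hp => contMDiffAt_fst.prodMk (((contDiffAt_inv ℝ hp).neg.contMDiffAt).comp p
        contMDiffAt_snd), mapsTo_univ _ _⟩) (fun p hp => congrArg l' (e _ _ hp)) fun _ _ => rfl)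
  have hf : ∀ {r : ℝ → ℝ}, ContDiff ℝ ∞ r → (∀ s, r s ≠ 0) → Uni (IR 2) (fun p : R × ℝ => m p.1)
      (fun p => m' p.1) (fun p => k (p.1, r p.2)) univ := fun hr h0 =>
    hk.comp (f := fun p : R × ℝ => (p.1, _))
      ⟨fun p _ => (contMDiff_fst.prodMk (hr.contMDiff.comp contMDiff_snd)) p, fun p _ => h0 _⟩
  have h2 := hf (r := fun _ => 2) contDiff_const fun _ => two_ne_zero
  have h3 := hf (r := fun _ => -2) contDiff_const fun _ => by norm_num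
  obtain ⟨u, hu, e1⟩ := exists_scalar hm' ((h2.symm.trans h3).comp (f := fun x : R => (x, (0 : ℝ)))
    (mp_univ (contMDiff_id.prodMk contMDiff_const)))
  have h4 := (((hf (γ4.comp contDiff_neg) fun s => inv_ne_zero (γ3 _)).trans h2.symm).trans
    (hf γ4.neg fun s => neg_ne_zero.2 (inv_ne_zero (γ3 _)))).trans hg
  obtain ⟨w, hw⟩ := exists_fun1 (OE.of_oe hc).inj fun p : R × ℝ =>
    g p * (k (p.1, -(γ p.2)⁻¹) * ((k (p.1, 2))ᴴ * k (p.1, (γ (-p.2))⁻¹)))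
  have h5 := uni_oe (p := fun y => m (π y)) (q := l') (OE.of_oe hc) hw
    (uni_congr h4 (fun p _ => by rw [π2]) fun _ _ => rfl)
  rw [image_univ, rc] at h5
  refine ⟨u, hu, uni_congr (hm.refl.comp (mp_univ contMDiff_fst)) (fun _ _ => rfl)
    fun p _ => congrArg m (π1 p), t'.mono (subset_univ _), w, h5, ?_⟩
  rintro ⟨x, y⟩ hp
  have k1 : y ≠ 0 → g (x, -y⁻¹) * k (x, y) = a' (x, y) := fun h0 => by
    rw [← Matrix.mul_assoc, (hg.iso _ trivial).tgt, ← e x y h0]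
    exact (t'.iso (x, y) trivial).left
  refine ⟨fun h0 => ?_, fun h0 => ?_⟩
  · have h6 : 1 ≤ -y⁻¹ := by
      rw [← inv_neg]; exact (one_le_inv₀ (neg_pos.2 h0)).2 (by linarith [hp.1])
    rw [e x y h0.ne, hw _ trivial]
    refine (h4.iso (x, -y⁻¹) trivial).idem.trans ?_
    dsimp only [Function.comp]
    rw [γ1 _ h6, γ2 _ (by linarith), inv_neg, _root_.inv_inv, neg_neg, (hk.iso (x, 2) two_ne_zero).src,
      (hk.iso (x, y) h0.ne).idem, k1 h0.ne]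
  · have h6 : 1 ≤ y⁻¹ := (one_le_inv₀ h0).2 hp.2.le
    rw [e x y h0.ne', hw _ trivial]
    refine (h4.iso (x, -y⁻¹) trivial).idem.trans ?_
    dsimp only [Function.comp]
    rw [neg_neg, γ1 _ h6, γ2 _ (by linarith), _root_.inv_inv, ← Matrix.mul_assoc (k _), e1 x,
      Matrix.smul_mul, (hk.iso (x, y) h0.ne').left, Matrix.mul_smul, k1 h0.ne']

/-- the twists of a line by a coset of `Γ` extend -/
def KL (b : R × ℝ → Y) (Γ : Set (R → Circle)) (C : End Y) : Prop :=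
  ∀ (κ' : Type) [Fintype κ'] (l' : Y → Matrix κ' κ' ℂ), Pl (𝓡 3) l' univ →
    ∃ (μ : Type) (_ : Fintype μ) (m : R → Matrix μ μ ℂ) (a' : R × ℝ → Matrix κ' μ ℂ) (u : R → Circle),
      Pl (𝓡 2) m univ ∧ Tr b (Ioo (-1) 1) m l' a' ∧ SC u ∧ ∀ δ ∈ Γ, ∀ (κ : Type) [Fintype κ]
        (l : Y → Matrix κ κ ℂ) (a : R × ℝ → Matrix κ μ ℂ), Pl (𝓡 3) l univ →
        Tw b m (u * δ) l a l' a' → Ext C l

theorem KL.ext {Γ : Set (R → Circle)} {C : End Y} (h : KL b Γ C) (hΓ : ∀ u, SC u → u ∈ Γ) :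
    EXT Y C := fun κ _ l hl =>
  let ⟨_, _, _, a, u, _, t, hu, k⟩ := h κ l hl
  k u⁻¹ (hΓ _ hu.inv) κ l a hl (by rw [mul_inv_cancel]; exact Tw.refl hl t)

theorem KL.step [PreconnectedSpace R] {o : Fm 2 R} (ho : Ori (𝓡 2) o) {t : Df R} (ht : Pos o t)
    {G : Rg b id b} (hG : ∀ y, G.φ y = y) {σ₁ σ₂ : ℝ → ℝ}
    (M : Cm G t (Diffeomorph.refl (𝓡 2) R ∞) σ₁ σ₂) (hσ : Icc (σ₁ 0) (σ₂ 0) ⊆ Ioo (-1) 1)
    {C : End Y} {C₁ : End M.Y₁} {C₂ : End Y} (O₁ : Op M.S₁ C C₁) (O₂ : Op M.S₂ C₁ C₂)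
    {Γ Γ' : Set (R → Circle)} (h : KL b Γ C)
    (hΓ : ∀ δ ∈ Γ', ∃ γ ∈ Γ, ∃ v, SC v ∧ δ = γ * ((v ∘ t) / v)) : KL b Γ' C₂ := by
  intro κ' _ l' hl
  obtain ⟨μ, i, m, a', u, hm, t', hu, k⟩ := h κ' l' hl
  refine ⟨μ, i, m, a', u, hm, t', hu, fun δ hδ κ _ l a h1 h2 => ?_⟩
  obtain ⟨γ, hγ, v, hv, rfl⟩ := hΓ δ hδ
  have hv' : SC (v ∘ t) := hv.comp t.contMDiff
  obtain ⟨n, _, l₀, a₀, h3, h4⟩ := exists_tw (u := ((v ∘ t) / v)⁻¹) hG hm h1 h2.t (hv'.div hv).inv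
  have h5 := h4.trans h2
  rw [mul_comm, ← mul_assoc, mul_inv_cancel_right] at h5
  obtain ⟨w, L⟩ := h4.rgL hG
  obtain ⟨T, hT⟩ := exists_lift ho ht hm
  refine cm_ext M O₁ O₂ isOpen_Ioo hσ hm L (uni_smul hm.refl fun x _ => hv' x) hT (fun x => ?_)
    (k γ hγ n l₀ a₀ h3 h5)
  show (((v (t (t x)) / v (t x))⁻¹ : Circle) : ℂ) • m (t x) * T x =
    ((v (t (t x)) : ℂ) • m (t x))ᴴ * (T x * (v (t x) : ℂ) • m x)
  rw [conjTranspose_smul, Matrix.mul_smul, Matrix.mul_smul, Matrix.smul_mul, Matrix.smul_mul,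
    (hm.prj _ trivial).herm, (hT.iso x trivial).idem, smul_smul, inv_div, div_eq_mul_inv,
    Circle.coe_mul, Circle.coe_inv_eq_conj]
  rfl

/-! ### the product -/

/-- a parametrisation of the circle minus a point -/
def ce (c s : ℝ) : Circle := Circle.exp (c + 2 * Real.arctan s)

theorem up_ce (c : ℝ) : Up (fun s => c + 2 * Real.arctan s) univ :=
  (Up.aff c two_pos univ).comp (Up.of_hasDerivAt (fun _ _ => Real.contDiff_arctan.contDiffAt)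
    (fun x _ => Real.hasDerivAt_arctan x) fun x _ => by positivity) (mapsTo_univ _ _)

theorem isOE_ce (c : ℝ) : IsOE 𝓘(ℝ, ℝ) (𝓡 1) (ce c) := by
  refine ⟨fun s t e => (up_ce c).strictMono.injective (Circle.exp_injOn_Ioc
    (a := c - Real.pi) (b := c + Real.pi) (by linarith) ⟨?_, ?_⟩ ⟨?_, ?_⟩ e),
    fun s => ld_comp (Glue52.ld_circleExp _) ((up_ce c).isOE.loc s)⟩ <;>
  linarith [Real.arctan_lt_pi_div_two s, Real.neg_pi_div_two_lt_arctan s,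
    Real.arctan_lt_pi_div_two t, Real.neg_pi_div_two_lt_arctan t]

theorem ce_inv {y : ℝ} (h : y ≠ 0) : ce Real.pi y = ce 0 (-y⁻¹) := by
  rw [ce, ce, Real.arctan_neg, Circle.exp_eq_exp]
  rcases h.lt_or_gt with h | h
  · exact ⟨0, by rw [Real.arctan_inv_of_neg h]; push_cast; ring⟩
  · exact ⟨1, by rw [Real.arctan_inv_of_pos h]; push_cast; ring⟩

theorem range_ce : range (ce 0) = {ce Real.pi 0}ᶜ := by
  have e : ce Real.pi 0 = Circle.exp Real.pi := by simp [ce]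
  have hp := Real.pi_pos
  ext z
  rw [e, mem_compl_singleton_iff]
  constructor
  · rintro ⟨s, rfl⟩ h
    have := Circle.exp_injOn_Ioc (a := -Real.pi) (b := Real.pi) (by linarith)
      ⟨by linarith [Real.neg_pi_div_two_lt_arctan s], by linarith [Real.arctan_lt_pi_div_two s]⟩
      ⟨by linarith, le_rfl⟩ h
    linarith [Real.arctan_lt_pi_div_two s]
  · intro h
    have h1 : Complex.arg z < Real.pi := lt_of_le_of_ne (Complex.arg_le_pi _) fun k =>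
      h (by rw [← k, Circle.exp_arg])
    refine ⟨Real.tan (Complex.arg z / 2), ?_⟩
    rw [ce, Real.arctan_tan (by linarith [Complex.neg_pi_lt_arg (z : ℂ)]) (by linarith), zero_add,
      mul_div_cancel₀ _ two_ne_zero, Circle.exp_arg]

theorem exists_rg_id (hb : Box b) : ∃ G : Rg b id b, ∀ y, G.φ y = y := by
  obtain ⟨Φ, h1, h2, h3⟩ := exists_pd (IA := 𝓡 3) (IB := 𝓡 3) id (f := id)
    (isClosed_slab hb (isCompact_singleton (x := 0))).isOpen_compl (fun y _ => IsOE.id.loc y)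
    (injOn_id _)
  exact ⟨⟨hb, hb, Φ, h1, h2.trans (image_id _), fun _ _ => h3 _, fun _ _ => h3 _⟩, h3⟩

theorem mt_id {G : Rg b id b} (hG : ∀ y, G.φ y = y) {oR : Fm 2 R} {o β τ : Fm 3 Y}
    (hR : Ori (𝓡 2) oR) (ho : Ori (𝓡 3) o) (h1 : Cy oR o b) (h2 : Dy b τ (Ioo (-1) 1)) :
    Mt G oR o β univ τ o β univ τ := by
  have e : (G.φ : Y → Y) = id := funext hG
  exact ⟨hR, ho, ho, h1, by rw [e, pm_id]; exact (Orx52.oriOn ho _).same, subset_univ _,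
    subset_univ _, h2, h2, fun _ _ => Iff.rfl, fun p _ => by rw [e, pm_id],
    fun p _ _ => ⟨1, one_pos, by rw [e, pm_id, one_smul]⟩⟩

section base

variable {C : End Y} (B : Bs R C)

/-- the boxes of the product -/
def Bs.bx (c : ℝ) (p : R × ℝ) : Y := B.f (p.1, ce c p.2)

theorem Bs.box (c : ℝ) : Box (B.bx c) := (IsOE.of_diffeo B.f).comp (IsOE.id.prodMap (isOE_ce c))

theorem Bs.exists_tr (c : ℝ) (hl : Pl (𝓡 3) l univ) : ∃ (m : R → Matrix κ κ ℂ) (a : _),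
    Pl (𝓡 2) m univ ∧ Tr (B.bx c) univ m l a := by
  have h := hl.comp (W := univ) (f := fun z : R × ℝ => B.f (z.1, Circle.exp (c + z.2)))
    (mp_univ (B.f.contMDiff.comp (contMDiff_fst.prodMk (contMDiff_circleExp.comp
      ((contDiff_const.add contDiff_id).contMDiff.comp contMDiff_snd)))))
  obtain ⟨u, hu⟩ := exists_uni_htpy (fun z => h.sm z trivial) (fun z => h.on.rk1 trivial)
    (c := fun s => 2 * Real.arctan s) (contDiff_const.mul Real.contDiff_arctan) (R := Real.pi)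
    fun s => abs_le.2 ⟨by linarith [Real.neg_pi_div_two_lt_arctan s],
      by linarith [Real.arctan_lt_pi_div_two s]⟩
  exact ⟨_, u, h.comp (f := fun x : R => (x, (0 : ℝ)))
    (mp_univ (contMDiff_id.prodMk contMDiff_const)), hu.mono (subset_univ _)⟩

theorem Bs.ext (hm : Pl (𝓡 2) m univ) : Ext C fun y => m (B.f.symm y).1 := by
  refine ⟨μ, inferInstance, fun x => m (B.g.symm x).1, fun p => m (B.f.symm p.1).1,
    hm.comp (mp_univ (contMDiff_fst.comp B.g.symm.contMDiff)), uni_congr (hm.refl.comp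
      (mp_univ (contMDiff_fst.comp (B.f.symm.contMDiff.comp contMDiff_fst)))) (fun _ _ => rfl) ?_⟩
  rintro ⟨y, s⟩ -
  obtain ⟨⟨x, θ⟩, rfl⟩ := (show Surjective B.f from B.f.surjective) y
  simp [B.eq]

theorem Bs.kl : KL (B.bx Real.pi)
    {δ | ∃ f : R → ℝ, ContMDiff (𝓡 2) 𝓘(ℝ, ℝ) ∞ f ∧ δ = fun x => Circle.exp (f x)} C := by
  intro κ' _ l' hl
  obtain ⟨m, a', hm, t'⟩ := B.exists_tr Real.pi hl
  obtain ⟨m', g, hm', hg⟩ := B.exists_tr 0 hl
  obtain ⟨u, hu, h⟩ := base_tw (B.box 0) (fun x y hy => by simp only [Bs.bx, ce_inv hy]) (by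
      ext y
      obtain ⟨⟨x, θ⟩, rfl⟩ := (show Surjective B.f from B.f.surjective) y
      constructor
      · rintro ⟨p, e⟩ ⟨q, hq, e'⟩
        have h1 : ce 0 p.2 = ce Real.pi q.2 := congrArg Prod.snd (B.f.injective (e.trans e'.symm))
        exact (range_ce ▸ mem_range_self p.2 : ce 0 p.2 ∈ ({ce Real.pi 0}ᶜ : Set Circle))
          (h1.trans (congrArg _ hq.2))
      · intro h
        obtain ⟨s, rfl⟩ : θ ∈ range (ce 0) := range_ce ▸ fun e : θ = _ =>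
          h ⟨(x, 0), ⟨trivial, rfl⟩, e ▸ rfl⟩
        exact ⟨(x, s), rfl⟩) hm t' hm' hg (π := fun y => (B.f.symm y).1)
    (fun p => by simp [Bs.bx]) fun p => by simp [Bs.bx]
  refine ⟨_, inferInstance, m, a', u, hm, h.t', hu, ?_⟩
  rintro _ ⟨f, hf, rfl⟩ κ _ l a - h1
  have h2 := h1.trans (h.symm (B.box _))
  rw [mul_comm u, mul_inv_cancel_right] at h2
  obtain ⟨v, hv⟩ := h2.uni (B.box _) hf
  exact (B.ext hm).of_uni hv

theorem Bs.dy {τ : Fm 3 Y} (h : ∀ p, ∃ f > (0 : ℝ), pm ((𝓡 2).prod (𝓡 1)) (𝓡 3) B.f τ p =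
    f • pm ((𝓡 2).prod (𝓡 1)) (𝓡 1) Prod.snd Orx52.oC p) (c : ℝ) (s : Set ℝ) : Dy (B.bx c) τ s := by
  intro x y _
  obtain ⟨f, f0, e⟩ := h (x, ce c y)
  have d : MDifferentiableAt (IR 2) ((𝓡 2).prod (𝓡 1)) (Prod.map id (ce c)) (x, y) :=
    ((IsOE.id.prodMap (isOE_ce c)).contMDiff _).mdifferentiableAt (by simp)
  refine ⟨f * deriv (fun s => c + 2 * Real.arctan s) y, mul_pos f0 (up_ce c y trivial).2, ?_⟩
  rw [show B.bx c = B.f ∘ Prod.map id (ce c) from rfl,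
    ← pm_comp (B.f.contMDiff.mdifferentiableAt (by simp)) d, pm_apply]
  erw [e]
  rw [map_smul, mul_smul]
  refine congrArg (f • ·) ((pm_comp (f := Prod.map id (ce c)) mdifferentiableAt_snd d).trans ?_)
  rw [Orx52.pm_oC (mdifferentiableAt_snd.comp _ d)]
  exact (ang_exp (f := (fun s => c + 2 * Real.arctan s) ∘ Prod.snd)
    (((up_ce c).contDiff.contMDiff.comp contMDiff_snd) _)).trans
    (Orx52.df_snd_comp ((up_ce c).hasDerivAt trivial))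

end base

theorem exists_cy [PreconnectedSpace R] (hb : Box b) {oR : Fm 2 R} {o : Fm 3 Y} (hR : Ori (𝓡 2) oR)
    (ho : Ori (𝓡 3) o) : ∃ o', Ori (𝓡 2) o' ∧ Cy o' o b := by
  rcases Orx52.pos_or isPreconnected_univ (Orx52.oriOn (Orx52.ori_cy hR) _) (Orx52.oriOn ho univ)
    (fun y _ => hb.loc y) (mapsTo_univ _ _) with h | h
  · exact ⟨oR, hR, h⟩
  · refine ⟨-oR, hR.neg, ?_⟩
    have e : Sym24.dt (EE 2) R * Sym24.pu (-oR) = -Orx52.cy oR := funext fun p => by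
      simp [Sym24.pu, Orx52.cy]
    rw [Cy, e]
    exact Orx52.pos_neg_left.2 h

/-- one handle -/
theorem exists_hd {G : Rg b id b} {oR : Fm 2 R} {o β τ : Fm 3 Y} (m : Mt G oR o β univ τ o β univ τ)
    {t : Df R} (ht : Pos oR t) {C : End Y} (h : OC C o (AA o β univ τ)) :
    ∃ (σ₁ σ₂ : ℝ → ℝ) (M : Cm G t (Diffeomorph.refl (𝓡 2) R ∞) σ₁ σ₂) (C₁ : End M.Y₁) (C₂ : End Y)
      (_ : Op M.S₁ C C₁) (_ : Op M.S₂ C₁ C₂), Icc (σ₁ 0) (σ₂ 0) ⊆ Ioo (-1) 1 ∧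
      OC C₂ o (AA o β univ τ) := by
  obtain ⟨σ₁, σ₂, L, r₁, r₂⟩ := exists_lv (r := 2⁻¹) (by norm_num)
  obtain ⟨M⟩ : Nonempty (Cm G t (Diffeomorph.refl (𝓡 2) R ∞) σ₁ σ₂) :=
    exists_cm (h := Diffeomorph.refl (𝓡 2) R ∞) G t (Diffeomorph.refl (𝓡 2) R ∞) (fun _ => rfl) L
  obtain ⟨C₁, ⟨P₁⟩⟩ := opStmt _ _ _ _ _ _ _ M.S₁ C
  obtain ⟨C₂, ⟨P₂⟩⟩ := opStmt _ _ _ _ _ _ _ M.S₂ C₁
  exact ⟨σ₁, σ₂, M, C₁, C₂, P₁, P₂,
    Icc_subset_Ioo (by linarith [(r₁ 0).1]) (by linarith [(r₂ 0).2]),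
    Bb31.regOc _ _ _ _ _ _ G _ t oR o β _ τ o β _ τ _ _ M C C₁ C₂ (Bb31.same_id m.hR :) ht
      (fun y => ⟨(r₁ y).1, (r₁ y).2.trans (by norm_num)⟩)
      (fun y => ⟨lt_trans (by norm_num) (r₂ y).1, (r₂ y).2⟩) m P₁ P₂ h⟩

theorem pos_refl {o : Fm 2 R} (ho : Ori (𝓡 2) o) : Pos o (Diffeomorph.refl (𝓡 2) R ∞) :=
  Bb31.same_id ho

/-- the functions which are killed by the handles -/
def Gam {n : ℕ} (t : Fin n → Df R) : Set (R → Circle) :=
  {u | ∃ (v : Fin n → R → Circle) (f : R → ℝ), (∀ k, SC (v k)) ∧ ContMDiff (𝓡 2) 𝓘(ℝ, ℝ) ∞ f ∧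
    ∀ x, u x = Circle.exp (f x) * ∏ k, v k (t k x) / v k x}

theorem exists_kl [PreconnectedSpace R] {G : Rg b id b} (hG : ∀ y, G.φ y = y) {oR : Fm 2 R}
    {o β τ : Fm 3 Y} (m : Mt G oR o β univ τ o β univ τ) {C : End Y} (h1 : OC C o (AA o β univ τ))
    (h2 : PreconnectedSpace C.X) (h3 : KL b
      {δ | ∃ f : R → ℝ, ContMDiff (𝓡 2) 𝓘(ℝ, ℝ) ∞ f ∧ δ = fun x => Circle.exp (f x)} C)
    (n : ℕ) : ∀ t : Fin n → Df R, (∀ k, Pos oR (t k)) → ∃ C' : End Y,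
      OC C' o (AA o β univ τ) ∧ PreconnectedSpace C'.X ∧ KL b (Gam t) C' := by
  induction n with
  | zero =>
    refine fun t _ => ⟨C, h1, h2, fun κ _ l hl => ?_⟩
    obtain ⟨μ, i, m, a, u, k1, k2, k3, k4⟩ := h3 κ l hl
    exact ⟨μ, i, m, a, u, k1, k2, k3, fun δ ⟨_, f, _, hf, e⟩ =>
      k4 δ ⟨f, hf, funext fun x => by simpa using e x⟩⟩
  | succ n ih =>
    intro t ht
    obtain ⟨C', k1, k2, k3⟩ := ih (fun k => t k.succ) fun k => ht _
    obtain ⟨σ₁, σ₂, M, C₁, C₂, P₁, P₂, k4, k5⟩ := exists_hd m (ht 0) k1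
    have := P₁.conn
    refine ⟨C₂, k5, P₂.conn, k3.step m.hR (ht 0) hG M k4 P₁ P₂ ?_⟩
    rintro δ ⟨v, f, hv, hf, e⟩
    refine ⟨_, ⟨fun k => v k.succ, f, fun k => hv _, hf, fun _ => rfl⟩, v 0, hv 0,
      funext fun x => ?_⟩
    rw [e, Fin.prod_univ_succ, mul_comm (_ / _), ← mul_assoc]
    rfl

theorem Bs.conn [PreconnectedSpace R] {C : End Y} (B : Bs R C) : PreconnectedSpace C.X :=
  ⟨by
    rw [← (show Surjective B.g from B.g.surjective).range_eq]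
    exact isPreconnected_range B.g.continuous⟩

/-- **the top cap** -/
theorem baseQ (hK : KillH1) (hB : HpBase)
    (hS : ∀ (R : CM 2) (o : Fm 2 R), Ori (𝓡 2) o → H7.G3 o → HS R) : H7.BaseQ Q := by
  intro Y R C B o β τ oR hR ⟨o₀, h₀, g₀⟩ ho hoR h1 h2
  obtain ⟨G, hG⟩ := exists_rg_id (B.box Real.pi)
  obtain ⟨o', ho', hc⟩ := exists_cy (B.box Real.pi) hoR ho
  have m := mt_id (β := β) hG ho' ho hc (B.dy h2 _ _)
  obtain ⟨n, t, ht, hk⟩ := hK R o' hR ho'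
  obtain ⟨C', k1, k2, k3⟩ := exists_kl hG m (Hel3.base Y R C B o β τ oR ho hoR h1 h2) B.conn B.kl
    n t ht
  obtain ⟨σ₁, σ₂, M, C₁, C₂, P₁, P₂, -, k5⟩ := exists_hd m (pos_refl ho') k1
  have := P₁.conn
  exact ⟨C₂, ⟨(k3.ext hk).cm ho' (pos_refl ho') (pos_refl ho') M P₁ P₂, P₂.conn,
    hB _ _ _ _ _ G _ _ M C' C₁ C₂ (hS R o₀ h₀ g₀) P₁ P₂⟩, k5⟩

end Crest.Agent.X212.Sep15
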